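import Mathlib

/-!
# P300 / PROJ: sections on a chart system

`X` is a complex manifold covered by parametrisations `Ph a`; `M` is the open dense unramified
part. Sections are functions `val s : M → ℂ`; in the parametrisation `a` they are represented by
`F a s = mu a * val s ∘ th a`, which extends holomorphically to the whole parametrisation.
-/

set_option autoImplicit false

open Set Filter Topology
open scoped Manifold ContDiff

namespace Vale.Agent.P300.PROJ

/-- Parametrisations of the complex manifold `X` and of its dense part `M`. -/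
structure Charts (E X M A : Type*) [NormedAddCommGroup E] [NormedSpace ℂ E]
    [TopologicalSpace X] [ChartedSpace E X] where
  Ph : A → OpenPartialHomeomorph E X
  Om0 : A → Set E
  th : A → E → M
  sub : ∀ a, Om0 a ⊆ (Ph a).source
  dense : ∀ a, (Ph a).source ⊆ closure (Om0 a)
  compat : ∀ a b z w, z ∈ Om0 a → w ∈ (Ph b).source → Ph a z = Ph b w → w ∈ Om0 b ∧ th a z = th b w
  cover : ∀ x, ∃ a, x ∈ (Ph a).target
  holo : ∀ a, ContMDiffOn 𝓘(ℂ, E) 𝓘(ℂ, E) ω (Ph a) (Ph a).source
  holo_symm : ∀ a, ContMDiffOn 𝓘(ℂ, E) 𝓘(ℂ, E) ω (Ph a).symm (Ph a).target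

variable {E X M A : Type*} [NormedAddCommGroup E] [NormedSpace ℂ E]
    [TopologicalSpace X] [ChartedSpace E X]

/-- A vector space of sections over a chart system. -/
structure Secs (C : Charts E X M A) (H : Type*) [AddCommGroup H] [Module ℂ H] where
  val : H → M → ℂ
  mu : A → E → ℂ
  F : A → H →ₗ[ℂ] (E → ℂ)
  eq : ∀ a s, ∀ z ∈ C.Om0 a, F a s z = mu a z * val s (C.th a z)
  anal : ∀ a s, ContDiffOn ℂ ω (F a s) (C.Ph a).source

namespace Secs

variable {C : Charts E X M A} {H : Type*} [AddCommGroup H] [Module ℂ H] (S : Secs C H)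

/-- `s` in the parametrisation `a`, as a function on `X`. -/
noncomputable def tau (a : A) : H →ₗ[ℂ] (X → ℂ) where
  toFun s := fun y => S.F a s ((C.Ph a).symm y)
  map_add' := fun s t => by ext y; simp
  map_smul' := fun c s => by ext y; simp

theorem tau_apply (a : A) (s : H) (y : X) : S.tau a s y = S.F a s ((C.Ph a).symm y) := rfl

theorem contMDiffOn_tau (a : A) (s : H) :
    ContMDiffOn 𝓘(ℂ, E) 𝓘(ℂ, ℂ) ω (S.tau a s) (C.Ph a).target := by
  have h1 : ContMDiffOn 𝓘(ℂ, E) 𝓘(ℂ, ℂ) ω (S.F a s) (C.Ph a).source :=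
    (S.anal a s).contMDiffOn
  exact h1.comp (C.holo_symm a) (fun y hy => (C.Ph a).map_target hy)

theorem continuousOn_tau (a : A) (s : H) : ContinuousOn (S.tau a s) (C.Ph a).target :=
  (S.contMDiffOn_tau a s).continuousOn

/-- cross multiplication on overlaps -/
theorem cross {a b : A} {y : X} (ha : y ∈ (C.Ph a).target) (hb : y ∈ (C.Ph b).target) (s t : H) :
    S.tau a s y * S.tau b t y = S.tau a t y * S.tau b s y := by
  -- it holds on the dense set
  have hz : (C.Ph a).symm y ∈ (C.Ph a).source := (C.Ph a).map_target ha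
  set O : Set X := (C.Ph a).target ∩ (C.Ph b).target with hO
  have hOo : IsOpen O := (C.Ph a).open_target.inter (C.Ph b).open_target
  have hcl : y ∈ closure ((C.Ph a) '' (C.Om0 a)) := by
    have h1 := C.dense a hz
    have h2 : (C.Ph a) ((C.Ph a).symm y) ∈ closure ((C.Ph a) '' (C.Om0 a)) := by
      have hc : ContinuousWithinAt (C.Ph a) (C.Om0 a) ((C.Ph a).symm y) :=
        ((C.Ph a).continuousAt hz).continuousWithinAt
      exact hc.mem_closure_image h1
    rwa [(C.Ph a).right_inv ha] at h2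
  have hcl2 : y ∈ closure ((C.Ph a) '' (C.Om0 a) ∩ O) := by
    rw [inter_comm]
    exact hOo.inter_closure ⟨⟨ha, hb⟩, hcl⟩
  have hcont : ∀ (e : A), y ∈ (C.Ph e).target → ∀ r : H, ContinuousAt (S.tau e r) y :=
    fun e he r => (S.continuousOn_tau e r).continuousAt ((C.Ph e).open_target.mem_nhds he)
  have hL : ContinuousAt (fun x => S.tau a s x * S.tau b t x - S.tau a t x * S.tau b s x) y :=
    ((hcont a ha s).mul (hcont b hb t)).sub ((hcont a ha t).mul (hcont b hb s))
  have hne : (𝓝[(C.Ph a) '' (C.Om0 a) ∩ O] y).NeBot := mem_closure_iff_nhdsWithin_neBot.1 hcl2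
  have hzero : ∀ x ∈ (C.Ph a) '' (C.Om0 a) ∩ O,
      S.tau a s x * S.tau b t x - S.tau a t x * S.tau b s x = 0 := by
    rintro x ⟨⟨z, hz0, rfl⟩, hx1, hx2⟩
    have hzs := C.sub a hz0
    set w := (C.Ph b).symm ((C.Ph a) z) with hw
    have hws : w ∈ (C.Ph b).source := (C.Ph b).map_target hx2
    have hPw : (C.Ph a) z = (C.Ph b) w := ((C.Ph b).right_inv hx2).symm
    obtain ⟨hw0, hth⟩ := C.compat a b z w hz0 hws hPw
    simp only [tau_apply, (C.Ph a).left_inv hzs]
    rw [← hw, S.eq a s z hz0, S.eq b t w hw0, S.eq a t z hz0, S.eq b s w hw0, hth]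
    ring
  have h0 : Tendsto (fun x => S.tau a s x * S.tau b t x - S.tau a t x * S.tau b s x)
      (𝓝[(C.Ph a) '' (C.Om0 a) ∩ O] y) (𝓝 0) :=
    tendsto_const_nhds.congr' (by
      filter_upwards [self_mem_nhdsWithin] with x hx
      exact (hzero x hx).symm)
  have := tendsto_nhds_unique (hL.tendsto.mono_left nhdsWithin_le_nhds) h0
  exact sub_eq_zero.1 this

/-- transition factors -/
theorem exists_factor (hbpf : ∀ a, ∀ y ∈ (C.Ph a).target, ∃ s, S.tau a s y ≠ 0)
    {a b : A} {y : X} (ha : y ∈ (C.Ph a).target) (hb : y ∈ (C.Ph b).target) :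
    ∃ c : ℂ, c ≠ 0 ∧ ∀ s, S.tau a s y = c * S.tau b s y := by
  obtain ⟨s0, h0⟩ := hbpf a y ha
  obtain ⟨s1, h1⟩ := hbpf b y hb
  have hb0 : S.tau b s0 y ≠ 0 := by
    intro h
    have := S.cross ha hb s0 s1
    rw [h, mul_zero] at this
    exact (mul_ne_zero h0 h1) this
  refine ⟨S.tau a s0 y / S.tau b s0 y, div_ne_zero h0 hb0, fun s => ?_⟩
  have := S.cross ha hb s s0
  rw [div_mul_eq_mul_div, eq_div_iff hb0, this]

end Secs

/-! ### products -/

section prod

variable {C : Charts E X M A} {H T : Type*} [AddCommGroup H] [Module ℂ H]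
  [AddCommGroup T] [Module ℂ T] (S : Secs C H) (L : Secs C T)

/-- products of sections -/
noncomputable def mulSecs : Secs C (T →₀ H) where
  val u m := u.sum fun t s => L.val t m * S.val s m
  mu a z := L.mu a z * S.mu a z
  F a := Finsupp.lsum ℂ fun t => (LinearMap.mulLeft ℂ (L.F a t)).comp (S.F a)
  eq := by
    intro a u z hz
    simp only [Finsupp.coe_lsum, LinearMap.coe_comp, Function.comp_apply,
      LinearMap.mulLeft_apply, Finsupp.sum, Finset.sum_apply, Pi.mul_apply, Finset.mul_sum]
    refine Finset.sum_congr rfl fun t _ => ?_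
    rw [L.eq a t z hz, S.eq a _ z hz]
    ring
  anal := by
    intro a u
    simp only [Finsupp.coe_lsum, LinearMap.coe_comp, Function.comp_apply,
      LinearMap.mulLeft_apply, Finsupp.sum]
    have : (∑ t ∈ u.support, L.F a t * (S.F a) (u t)) =
        fun z => ∑ t ∈ u.support, L.F a t z * (S.F a) (u t) z := by
      ext z; simp
    rw [this]
    exact ContDiffOn.sum fun t _ => (L.anal a t).mul (S.anal a _)

theorem mulSecs_tau_single (a : A) (t : T) (s : H) (y : X) :
    (mulSecs S L).tau a (Finsupp.single t s) y = L.tau a t y * S.tau a s y := by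
  simp [Secs.tau_apply, mulSecs]

end prod

end Vale.Agent.P300.PROJ
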