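import Vale.Agent.P300.PROJ.Form
import Vale.Agent.P300.H933.EmbD
import Vale.Agent.P300.H232.Stmt

/-!
# P300 / PROJ: jets in the parametrisations and five maps to `ℙ¹` give the projective embedding

`X` is a compact complex manifold covered by parametrisations `Ph a`; `M` is the unramified part,
`Ph a = ι ∘ th a` on the dense set `Om0 a` (only the compatibility of the `th a` is used). `H` is a
space of functions on `M` which extend holomorphically to the parametrisations after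
multiplication with `mu a`. `JetHyp`: the 1-jets at a point of a fibre of `q` are arbitrary, with
zeros at the other points of the fibre.
-/

set_option autoImplicit false

open Set Filter Topology
open scoped Manifold ContDiff LinearAlgebra.Projectivization

namespace Vale.Agent.P300.PROJ

variable {E X M A : Type*} [NormedAddCommGroup E] [NormedSpace ℂ E]
    [TopologicalSpace X] [ChartedSpace E X]

/-- Arbitrary 1-jets at one point, zeros at the other points of the fibre (`nd a` is the node of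
the parametrisation `a`, `pt a z` the point of the node chart below `z`). -/
structure JetHyp (C : Charts E X M A) (mu : A → E → ℂ) (H : Submodule ℂ (M → ℂ))
    {B P Y : Type*} (nd : A → B) (pt : A → E → P) (q : X → Y) : Prop where
  /-- extensions -/
  ext : ∀ s ∈ H, ∀ a, ∃ G : E → ℂ, ContDiffOn ℂ ω G (C.Ph a).source ∧
    ∀ z ∈ C.Om0 a, G z = mu a z * s (C.th a z)
  /-- jets -/
  jets : ∀ a, ∀ z ∈ (C.Ph a).source, ∀ (α : ℂ) (L : E →L[ℂ] ℂ), ∃ s ∈ H,
    (∃ G : E → ℂ, ContDiffOn ℂ ω G (C.Ph a).source ∧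
      (∀ z ∈ C.Om0 a, G z = mu a z * s (C.th a z)) ∧ G z = α ∧ fderiv ℂ G z = L) ∧
    ∀ b, ∀ w ∈ (C.Ph b).source, nd b = nd a → pt b w = pt a z → C.Ph b w ≠ C.Ph a z →
      ∃ G : E → ℂ, ContDiffOn ℂ ω G (C.Ph b).source ∧
        (∀ z ∈ C.Om0 b, G z = mu b z * s (C.th b z)) ∧ G w = 0
  /-- the points of the fibre are seen from the same node -/
  fib : ∀ a, ∀ z ∈ (C.Ph a).source, ∀ y : X, q y = q (C.Ph a z) →
    ∃ b, ∃ w ∈ (C.Ph b).source, nd b = nd a ∧ pt b w = pt a z ∧ C.Ph b w = y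

namespace Secs

variable {C : Charts E X M A} {H : Type*} [AddCommGroup H] [Module ℂ H] (S : Secs C H)

/-- The section system in helper933's form. -/
noncomputable def toSecSys (hbpf : ∀ a, ∀ y ∈ (C.Ph a).target, ∃ s, S.tau a s y ≠ 0) :
    Emb.SecSys E X H where
  U x := (C.Ph (C.cover x).choose).target
  isOpen _ := (C.Ph _).open_target
  mem x := (C.cover x).choose_spec
  τ x s := S.tau (C.cover x).choose s
  hol _ s := S.contMDiffOn_tau _ s
  comp _ _ _ hy hy' := S.exists_factor hbpf hy hy'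

end Secs

namespace JetHyp

variable {C : Charts E X M A} {mu : A → E → ℂ} {H : Submodule ℂ (M → ℂ)}
    {B P Y : Type*} {nd : A → B} {pt : A → E → P} {q : X → Y} (J : JetHyp C mu H nd pt q)
include J

/-- the section system of `H` -/
noncomputable def S : Secs C H := Secs.ofSub C mu H J.ext

theorem S_F (a : A) {s : M → ℂ} (hs : s ∈ H) {G : E → ℂ}
    (hG : ContDiffOn ℂ ω G (C.Ph a).source) (h : ∀ z ∈ C.Om0 a, G z = mu a z * s (C.th a z)) :
    ∀ z ∈ (C.Ph a).source, J.S.F a ⟨s, hs⟩ z = G z :=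
  Secs.ofSub_F a ⟨s, hs⟩ hG.continuousOn h

theorem S_fderiv (a : A) {s : M → ℂ} (hs : s ∈ H) {G : E → ℂ}
    (hG : ContDiffOn ℂ ω G (C.Ph a).source) (h : ∀ z ∈ C.Om0 a, G z = mu a z * s (C.th a z))
    {z : E} (hz : z ∈ (C.Ph a).source) :
    fderiv ℂ (J.S.F a ⟨s, hs⟩) z = fderiv ℂ G z := by
  refine Filter.EventuallyEq.fderiv_eq ?_
  filter_upwards [(C.Ph a).open_source.mem_nhds hz] with y hy
  exact J.S_F a hs hG h y hy

theorem bpf (a : A) (y : X) (hy : y ∈ (C.Ph a).target) : ∃ s, J.S.tau a s y ≠ 0 := by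
  obtain ⟨s, hs, ⟨G, hG, hG1, hG2, -⟩, -⟩ := J.jets a _ ((C.Ph a).map_target hy) 1 0
  refine ⟨⟨s, hs⟩, ?_⟩
  rw [Secs.tau_apply, J.S_F a hs hG hG1 _ ((C.Ph a).map_target hy), hG2]
  exact one_ne_zero

theorem sep {x y : X} (hxy : x ≠ y) (hq : q x = q y) {a b : A} (ha : x ∈ (C.Ph a).target)
    (hb : y ∈ (C.Ph b).target) : ∃ s, J.S.tau a s x = 0 ∧ J.S.tau b s y ≠ 0 := by
  have hw : (C.Ph b).symm y ∈ (C.Ph b).source := (C.Ph b).map_target hb
  have hPw : C.Ph b ((C.Ph b).symm y) = y := (C.Ph b).right_inv hb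
  obtain ⟨a', z', hz', hnd, hpt, hPz⟩ := J.fib b _ hw x (by rw [hPw]; exact hq)
  obtain ⟨s, hs, ⟨G, hG, hG1, hG2, -⟩, h2⟩ := J.jets b _ hw 1 0
  obtain ⟨G', hG', hG1', hG2'⟩ := h2 a' z' hz' hnd hpt (by rw [hPz, hPw]; exact hxy)
  have hx' : x ∈ (C.Ph a').target := by rw [← hPz]; exact (C.Ph a').map_source hz'
  refine ⟨⟨s, hs⟩, ?_, ?_⟩
  · rw [J.S.tau_eq_zero_iff J.bpf ha hx', Secs.tau_apply, ← hPz, (C.Ph a').left_inv hz',
      J.S_F a' hs hG' hG1' z' hz', hG2']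
  · rw [Secs.tau_apply, J.S_F b hs hG hG1 _ hw, hG2]
    exact one_ne_zero

theorem tan {x : X} {a : A} (ha : x ∈ (C.Ph a).target) (v : TangentSpace 𝓘(ℂ, E) x)
    (hv : v ≠ 0) : ∃ s, J.S.tau a s x = 0 ∧
      (mfderiv 𝓘(ℂ, E) 𝓘(ℂ, ℂ) (J.S.tau a s) x v : ℂ) ≠ 0 := by
  have hz : (C.Ph a).symm x ∈ (C.Ph a).source := (C.Ph a).map_target ha
  set v' : E := mfderiv 𝓘(ℂ, E) 𝓘(ℂ, E) (C.Ph a).symm x v with hv'
  have hv0 : v' ≠ 0 := by
    intro h0
    apply hv
    apply C.mfderiv_symm_injective a ha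
    rw [map_zero]
    exact h0
  obtain ⟨L, hL⟩ : ∃ L : E →L[ℂ] ℂ, L v' ≠ 0 := by
    obtain ⟨g, -, hg⟩ := exists_dual_vector ℂ v' (norm_ne_zero_iff.2 hv0)
    refine ⟨g, ?_⟩
    rw [hg]
    exact Complex.ofReal_ne_zero.2 (norm_ne_zero_iff.2 hv0)
  obtain ⟨s, hs, ⟨G, hG, hG1, hG2, hG3⟩, -⟩ := J.jets a _ hz 0 L
  refine ⟨⟨s, hs⟩, ?_, ?_⟩
  · rw [Secs.tau_apply, J.S_F a hs hG hG1 _ hz, hG2]
  · rw [Secs.mfderiv_tau _ a _ ha, J.S_fderiv a hs hG hG1 hz, hG3]
    exact hL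

/-- **MAIN-PROJ**: `X` is embedded in a projective space. -/
theorem exists_embedding [FiniteDimensional ℂ E] [IsManifold 𝓘(ℂ, E) ω X] [CompactSpace X]
    [Nonempty X] {ι : Type*} [Fintype ι] {c : ι → X → OnePoint ℂ}
    (hc : ∀ i, Emb.IsHolP1 E (c i)) (hq : ∀ x y, (∀ i, c i x = c i y) → q x = q y) :
    ∃ (N : ℕ) (Φ : X → ℙ ℂ (Fin (N + 1) → ℂ)), Function.Injective Φ ∧
      IsProjectiveImmersion E Φ := by
  classical
  obtain ⟨T, hT⟩ := Emb.SecSys.exists_good_rel (J.S.toSecSys J.bpf)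
    (fun x => J.bpf _ x (C.cover x).choose_spec) hc
    (fun x y hxy h => J.sep hxy (hq x y h) (C.cover x).choose_spec (C.cover y).choose_spec)
    (fun x v hv => J.tan (C.cover x).choose_spec v hv)
  obtain ⟨N, -, F, h1, h2, -⟩ := hT.exists_map
  refine ⟨N, F, h1, fun x => ?_⟩
  obtain ⟨W, f, hW, hx, hf, h3, h4⟩ := h2 x
  exact ⟨W, f, hW, hx, hf, h3, h4⟩

end JetHyp

end Vale.Agent.P300.PROJ
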