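import Vale.Agent.P300.PROJ.NodeBase
import Vale.Agent.P300.H142.Kap

/-!
# P300 / PROJ, blocks ADM and NODEFORM (E4a) for the node table `H142.kap`

Generated tables. `gN ν = kap 0 ⁻¹ ∘ kap ν`, `gN' ν` its inverse, `AN ν j / BN ν j` the five cross
ratios of `gN ν w` (`kap_eq`), `mN ν = ∏ j, BN ν j`.
-/

set_option autoImplicit false
set_option linter.all false

open Set
open scoped ContDiff

namespace Vale.Agent.P300.PROJ

open Vale.Agent.P300.H266

/-- The thirty transforms as fractions. -/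
noncomputable def F : Fin 5 → Fin 6 → ℂ → ℂ → ℂ
  | 0, 0, u, v => u / 1
  | 0, 1, u, v => 1 / u
  | 0, 2, u, v => (1 - u) / 1
  | 0, 3, u, v => 1 / (1 - u)
  | 0, 4, u, v => -u / (1 - u)
  | 0, 5, u, v => -(1 - u) / u
  | 1, 0, u, v => v / 1
  | 1, 1, u, v => 1 / v
  | 1, 2, u, v => (1 - v) / 1
  | 1, 3, u, v => 1 / (1 - v)
  | 1, 4, u, v => -v / (1 - v)
  | 1, 5, u, v => -(1 - v) / v
  | 2, 0, u, v => (u * v) / 1
  | 2, 1, u, v => 1 / (u * v)
  | 2, 2, u, v => (1 - u * v) / 1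
  | 2, 3, u, v => 1 / (1 - u * v)
  | 2, 4, u, v => -(u * v) / (1 - u * v)
  | 2, 5, u, v => -(1 - u * v) / (u * v)
  | 3, 0, u, v => (1 - u) / (1 - u * v)
  | 3, 1, u, v => (1 - u * v) / (1 - u)
  | 3, 2, u, v => (u * (1 - v)) / (1 - u * v)
  | 3, 3, u, v => (1 - u * v) / (u * (1 - v))
  | 3, 4, u, v => -(1 - u) / (u * (1 - v))
  | 3, 5, u, v => -(u * (1 - v)) / (1 - u)
  | 4, 0, u, v => (1 - v) / (1 - u * v)
  | 4, 1, u, v => (1 - u * v) / (1 - v)
  | 4, 2, u, v => (v * (1 - u)) / (1 - u * v)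
  | 4, 3, u, v => (1 - u * v) / (v * (1 - u))
  | 4, 4, u, v => -(1 - v) / (v * (1 - u))
  | 4, 5, u, v => -(v * (1 - u)) / (1 - v)

theorem F_eq {u v : ℂ} (h0 : u ≠ 0) (h1 : v ≠ 0) (h2 : 1 - u ≠ 0) (h3 : 1 - v ≠ 0)
    (h4 : 1 - u * v ≠ 0) (k : Fin 5) (t : Fin 6) :
    af t (![u, v, u * v, (1 - u) / (1 - u * v), (1 - v) / (1 - u * v)] k) = F k t u v := by
  have h4' : 1 - v * u ≠ 0 := by rwa [mul_comm]
  have e1 : u - 1 = -(1 - u) := by ring
  have e2 : v - 1 = -(1 - v) := by ring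
  have e3 : u * v - 1 = -(1 - u * v) := by ring
  have e4 : 1 - (1 - u) / (1 - u * v) = u * (1 - v) / (1 - u * v) := by
    field_simp; ring
  have e5 : 1 - (1 - v) / (1 - u * v) = v * (1 - u) / (1 - u * v) := by
    field_simp; ring
  have e6 : (1 - u) / (1 - u * v) - 1 = -(u * (1 - v)) / (1 - u * v) := by
    field_simp; ring
  have e7 : (1 - v) / (1 - u * v) - 1 = -(v * (1 - u)) / (1 - u * v) := by
    field_simp; ring
  fin_cases k
  · fin_cases t
    · show u / 1 = u / 1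
      rfl
    · show 1 / u = 1 / u
      rfl
    · show (1 - u) / 1 = (1 - u) / 1
      rfl
    · show 1 / (1 - u) = 1 / (1 - u)
      rfl
    · show u / (u - 1) = -u / (1 - u)
      rw [e1]
      try field_simp
      try ring
    · show (u - 1) / u = -(1 - u) / u
      rw [e1]
      try field_simp
      try ring
  · fin_cases t
    · show v / 1 = v / 1
      rfl
    · show 1 / v = 1 / v
      rfl
    · show (1 - v) / 1 = (1 - v) / 1
      rfl
    · show 1 / (1 - v) = 1 / (1 - v)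
      rfl
    · show v / (v - 1) = -v / (1 - v)
      rw [e2]
      try field_simp
      try ring
    · show (v - 1) / v = -(1 - v) / v
      rw [e2]
      try field_simp
      try ring
  · fin_cases t
    · show (u * v) / 1 = (u * v) / 1
      rfl
    · show 1 / (u * v) = 1 / (u * v)
      rfl
    · show (1 - (u * v)) / 1 = (1 - u * v) / 1
      rfl
    · show 1 / (1 - (u * v)) = 1 / (1 - u * v)
      rfl
    · show (u * v) / ((u * v) - 1) = -(u * v) / (1 - u * v)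
      rw [e3]
      try field_simp
      try ring
    · show ((u * v) - 1) / (u * v) = -(1 - u * v) / (u * v)
      rw [e3]
      try field_simp
      try ring
  · fin_cases t
    · show ((1 - u) / (1 - u * v)) / 1 = (1 - u) / (1 - u * v)
      rw [div_one]
    · show 1 / ((1 - u) / (1 - u * v)) = (1 - u * v) / (1 - u)
      try field_simp
      try ring
    · show (1 - ((1 - u) / (1 - u * v))) / 1 = (u * (1 - v)) / (1 - u * v)
      rw [e4]
      rw [div_one]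
    · show 1 / (1 - ((1 - u) / (1 - u * v))) = (1 - u * v) / (u * (1 - v))
      rw [e4]
      try field_simp
      try ring
    · show ((1 - u) / (1 - u * v)) / (((1 - u) / (1 - u * v)) - 1) = -(1 - u) / (u * (1 - v))
      rw [e6]
      try field_simp
      try ring
    · show (((1 - u) / (1 - u * v)) - 1) / ((1 - u) / (1 - u * v)) = -(u * (1 - v)) / (1 - u)
      rw [e6]
      try field_simp
      try ring
  · fin_cases t
    · show ((1 - v) / (1 - u * v)) / 1 = (1 - v) / (1 - u * v)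
      rw [div_one]
    · show 1 / ((1 - v) / (1 - u * v)) = (1 - u * v) / (1 - v)
      try field_simp
      try ring
    · show (1 - ((1 - v) / (1 - u * v))) / 1 = (v * (1 - u)) / (1 - u * v)
      rw [e5]
      rw [div_one]
    · show 1 / (1 - ((1 - v) / (1 - u * v))) = (1 - u * v) / (v * (1 - u))
      rw [e5]
      try field_simp
      try ring
    · show ((1 - v) / (1 - u * v)) / (((1 - v) / (1 - u * v)) - 1) = -(1 - v) / (v * (1 - u))
      rw [e7]
      try field_simp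
      try ring
    · show (((1 - v) / (1 - u * v)) - 1) / ((1 - v) / (1 - u * v)) = -(v * (1 - u)) / (1 - v)
      rw [e7]
      try field_simp
      try ring

theorem Ok.of' {p : Fin 5 → Fin 5} {t : Fin 5 → Fin 6}
    (h : ∀ u v : ℂ, u ≠ 0 → v ≠ 0 → 1 - u ≠ 0 → 1 - v ≠ 0 → 1 - u * v ≠ 0 →
      F (p 0) (t 0) u v * F (p 1) (t 1) u v = F (p 2) (t 2) u v ∧
      1 - F (p 0) (t 0) u v = (1 - F (p 2) (t 2) u v) * F (p 3) (t 3) u v ∧
      1 - F (p 1) (t 1) u v = (1 - F (p 2) (t 2) u v) * F (p 4) (t 4) u v) : Ok p t := by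
  refine Ok.of fun u v h0 h1 h2 h3 h4 => ?_
  simp only [F_eq h0 h1 h2 h3 h4]
  exact h u v h0 h1 h2 h3 h4

theorem ok0 : Ok ![0, 1, 2, 3, 4] ![0, 0, 0, 0, 0] := by
  refine Ok.of' fun u v h0 h1 h2 h3 h4 => ?_
  have h4' : 1 - v * u ≠ 0 := by rwa [mul_comm]
  refine ⟨?_, ?_, ?_⟩
  · show (u / 1) * (v / 1) = (u * v) / 1
    field_simp
    try ring
  · show 1 - (u / 1) = (1 - ((u * v) / 1)) * ((1 - u) / (1 - u * v))
    field_simp
    try ring
  · show 1 - (v / 1) = (1 - ((u * v) / 1)) * ((1 - v) / (1 - u * v))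
    field_simp
    try ring

theorem ok1 : Ok ![0, 4, 3, 2, 1] ![0, 0, 2, 2, 0] := by
  refine Ok.of' fun u v h0 h1 h2 h3 h4 => ?_
  have h4' : 1 - v * u ≠ 0 := by rwa [mul_comm]
  refine ⟨?_, ?_, ?_⟩
  · show (u / 1) * ((1 - v) / (1 - u * v)) = (u * (1 - v)) / (1 - u * v)
    field_simp
    try ring
  · show 1 - (u / 1) = (1 - ((u * (1 - v)) / (1 - u * v))) * ((1 - u * v) / 1)
    field_simp
    try ring
  · show 1 - ((1 - v) / (1 - u * v)) = (1 - ((u * (1 - v)) / (1 - u * v))) * (v / 1)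
    field_simp
    try ring

theorem ok2 : Ok ![3, 2, 0, 4, 1] ![0, 2, 2, 0, 0] := by
  refine Ok.of' fun u v h0 h1 h2 h3 h4 => ?_
  have h4' : 1 - v * u ≠ 0 := by rwa [mul_comm]
  refine ⟨?_, ?_, ?_⟩
  · show ((1 - u) / (1 - u * v)) * ((1 - u * v) / 1) = (1 - u) / 1
    field_simp
    try ring
  · show 1 - ((1 - u) / (1 - u * v)) = (1 - ((1 - u) / 1)) * ((1 - v) / (1 - u * v))
    field_simp
    try ring
  · show 1 - ((1 - u * v) / 1) = (1 - ((1 - u) / 1)) * (v / 1)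
    field_simp
    try ring

theorem ok3 : Ok ![2, 4, 1, 0, 3] ![2, 0, 2, 0, 0] := by
  refine Ok.of' fun u v h0 h1 h2 h3 h4 => ?_
  have h4' : 1 - v * u ≠ 0 := by rwa [mul_comm]
  refine ⟨?_, ?_, ?_⟩
  · show ((1 - u * v) / 1) * ((1 - v) / (1 - u * v)) = (1 - v) / 1
    field_simp
    try ring
  · show 1 - ((1 - u * v) / 1) = (1 - ((1 - v) / 1)) * (u / 1)
    field_simp
    try ring
  · show 1 - ((1 - v) / (1 - u * v)) = (1 - ((1 - v) / 1)) * ((1 - u) / (1 - u * v))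
    field_simp
    try ring

theorem ok4 : Ok ![2, 3, 0, 1, 4] ![2, 0, 2, 0, 0] := by
  refine Ok.of' fun u v h0 h1 h2 h3 h4 => ?_
  have h4' : 1 - v * u ≠ 0 := by rwa [mul_comm]
  refine ⟨?_, ?_, ?_⟩
  · show ((1 - u * v) / 1) * ((1 - u) / (1 - u * v)) = (1 - u) / 1
    field_simp
    try ring
  · show 1 - ((1 - u * v) / 1) = (1 - ((1 - u) / 1)) * (v / 1)
    field_simp
    try ring
  · show 1 - ((1 - u) / (1 - u * v)) = (1 - ((1 - u) / 1)) * ((1 - v) / (1 - u * v))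
    field_simp
    try ring

theorem ok5 : Ok ![4, 0, 3, 1, 2] ![0, 0, 2, 0, 2] := by
  refine Ok.of' fun u v h0 h1 h2 h3 h4 => ?_
  have h4' : 1 - v * u ≠ 0 := by rwa [mul_comm]
  refine ⟨?_, ?_, ?_⟩
  · show ((1 - v) / (1 - u * v)) * (u / 1) = (u * (1 - v)) / (1 - u * v)
    field_simp
    try ring
  · show 1 - ((1 - v) / (1 - u * v)) = (1 - ((u * (1 - v)) / (1 - u * v))) * (v / 1)
    field_simp
    try ring
  · show 1 - (u / 1) = (1 - ((u * (1 - v)) / (1 - u * v))) * ((1 - u * v) / 1)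
    field_simp
    try ring

theorem ok6 : Ok ![1, 3, 4, 2, 0] ![0, 0, 2, 2, 0] := by
  refine Ok.of' fun u v h0 h1 h2 h3 h4 => ?_
  have h4' : 1 - v * u ≠ 0 := by rwa [mul_comm]
  refine ⟨?_, ?_, ?_⟩
  · show (v / 1) * ((1 - u) / (1 - u * v)) = (v * (1 - u)) / (1 - u * v)
    field_simp
    try ring
  · show 1 - (v / 1) = (1 - ((v * (1 - u)) / (1 - u * v))) * ((1 - u * v) / 1)
    field_simp
    try ring
  · show 1 - ((1 - u) / (1 - u * v)) = (1 - ((v * (1 - u)) / (1 - u * v))) * (u / 1)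
    field_simp
    try ring

theorem ok7 : Ok ![2, 4, 3, 0, 1] ![0, 4, 5, 2, 1] := by
  refine Ok.of' fun u v h0 h1 h2 h3 h4 => ?_
  have h4' : 1 - v * u ≠ 0 := by rwa [mul_comm]
  refine ⟨?_, ?_, ?_⟩
  · show ((u * v) / 1) * (-(1 - v) / (v * (1 - u))) = -(u * (1 - v)) / (1 - u)
    field_simp
    try ring
  · show 1 - ((u * v) / 1) = (1 - (-(u * (1 - v)) / (1 - u))) * ((1 - u) / 1)
    field_simp
    try ring
  · show 1 - (-(1 - v) / (v * (1 - u))) = (1 - (-(u * (1 - v)) / (1 - u))) * (1 / v)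
    field_simp
    try ring

theorem ok8 : Ok ![3, 4, 0, 2, 1] ![2, 1, 0, 3, 4] := by
  refine Ok.of' fun u v h0 h1 h2 h3 h4 => ?_
  have h4' : 1 - v * u ≠ 0 := by rwa [mul_comm]
  refine ⟨?_, ?_, ?_⟩
  · show ((u * (1 - v)) / (1 - u * v)) * ((1 - u * v) / (1 - v)) = u / 1
    field_simp
    try ring
  · show 1 - ((u * (1 - v)) / (1 - u * v)) = (1 - (u / 1)) * (1 / (1 - u * v))
    field_simp
    try ring
  · show 1 - ((1 - u * v) / (1 - v)) = (1 - (u / 1)) * (-v / (1 - v))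
    field_simp
    try ring

theorem ok9 : Ok ![4, 2, 0, 3, 1] ![2, 5, 5, 2, 1] := by
  refine Ok.of' fun u v h0 h1 h2 h3 h4 => ?_
  have h4' : 1 - v * u ≠ 0 := by rwa [mul_comm]
  refine ⟨?_, ?_, ?_⟩
  · show ((v * (1 - u)) / (1 - u * v)) * (-(1 - u * v) / (u * v)) = -(1 - u) / u
    field_simp
    try ring
  · show 1 - ((v * (1 - u)) / (1 - u * v)) = (1 - (-(1 - u) / u)) * ((u * (1 - v)) / (1 - u * v))
    field_simp
    try ring
  · show 1 - (-(1 - u * v) / (u * v)) = (1 - (-(1 - u) / u)) * (1 / v)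
    field_simp
    try ring

theorem ok10 : Ok ![2, 4, 1, 3, 0] ![3, 1, 3, 2, 2] := by
  refine Ok.of' fun u v h0 h1 h2 h3 h4 => ?_
  have h4' : 1 - v * u ≠ 0 := by rwa [mul_comm]
  refine ⟨?_, ?_, ?_⟩
  · show (1 / (1 - u * v)) * ((1 - u * v) / (1 - v)) = 1 / (1 - v)
    field_simp
    try ring
  · show 1 - (1 / (1 - u * v)) = (1 - (1 / (1 - v))) * ((u * (1 - v)) / (1 - u * v))
    field_simp
    try ring
  · show 1 - ((1 - u * v) / (1 - v)) = (1 - (1 / (1 - v))) * ((1 - u) / 1)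
    field_simp
    try ring

theorem ok11 : Ok ![1, 3, 0, 2, 4] ![2, 4, 5, 0, 1] := by
  refine Ok.of' fun u v h0 h1 h2 h3 h4 => ?_
  have h4' : 1 - v * u ≠ 0 := by rwa [mul_comm]
  refine ⟨?_, ?_, ?_⟩
  · show ((1 - v) / 1) * (-(1 - u) / (u * (1 - v))) = -(1 - u) / u
    field_simp
    try ring
  · show 1 - ((1 - v) / 1) = (1 - (-(1 - u) / u)) * ((u * v) / 1)
    field_simp
    try ring
  · show 1 - (-(1 - u) / (u * (1 - v))) = (1 - (-(1 - u) / u)) * ((1 - u * v) / (1 - v))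
    field_simp
    try ring

theorem ok12 : Ok ![2, 0, 3, 1, 4] ![3, 2, 0, 4, 1] := by
  refine Ok.of' fun u v h0 h1 h2 h3 h4 => ?_
  have h4' : 1 - v * u ≠ 0 := by rwa [mul_comm]
  refine ⟨?_, ?_, ?_⟩
  · show (1 / (1 - u * v)) * ((1 - u) / 1) = (1 - u) / (1 - u * v)
    field_simp
    try ring
  · show 1 - (1 / (1 - u * v)) = (1 - ((1 - u) / (1 - u * v))) * (-v / (1 - v))
    field_simp
    try ring
  · show 1 - ((1 - u) / 1) = (1 - ((1 - u) / (1 - u * v))) * ((1 - u * v) / (1 - v))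
    field_simp
    try ring

theorem ok13 : Ok ![4, 1, 2, 0, 3] ![0, 3, 3, 5, 3] := by
  refine Ok.of' fun u v h0 h1 h2 h3 h4 => ?_
  have h4' : 1 - v * u ≠ 0 := by rwa [mul_comm]
  refine ⟨?_, ?_, ?_⟩
  · show ((1 - v) / (1 - u * v)) * (1 / (1 - v)) = 1 / (1 - u * v)
    field_simp
    try ring
  · show 1 - ((1 - v) / (1 - u * v)) = (1 - (1 / (1 - u * v))) * (-(1 - u) / u)
    field_simp
    try ring
  · show 1 - (1 / (1 - v)) = (1 - (1 / (1 - u * v))) * ((1 - u * v) / (u * (1 - v)))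
    field_simp
    try ring

theorem ok14 : Ok ![3, 1, 2, 4, 0] ![3, 5, 5, 5, 0] := by
  refine Ok.of' fun u v h0 h1 h2 h3 h4 => ?_
  have h4' : 1 - v * u ≠ 0 := by rwa [mul_comm]
  refine ⟨?_, ?_, ?_⟩
  · show ((1 - u * v) / (u * (1 - v))) * (-(1 - v) / v) = -(1 - u * v) / (u * v)
    field_simp
    try ring
  · show 1 - ((1 - u * v) / (u * (1 - v))) = (1 - (-(1 - u * v) / (u * v))) * (-(v * (1 - u)) / (1 - v))
    field_simp
    try ring
  · show 1 - (-(1 - v) / v) = (1 - (-(1 - u * v) / (u * v))) * (u / 1)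
    field_simp
    try ring

theorem ok15 : Ok ![1, 4, 3, 0, 2] ![0, 3, 1, 5, 1] := by
  refine Ok.of' fun u v h0 h1 h2 h3 h4 => ?_
  have h4' : 1 - v * u ≠ 0 := by rwa [mul_comm]
  refine ⟨?_, ?_, ?_⟩
  · show (v / 1) * ((1 - u * v) / (v * (1 - u))) = (1 - u * v) / (1 - u)
    field_simp
    try ring
  · show 1 - (v / 1) = (1 - ((1 - u * v) / (1 - u))) * (-(1 - u) / u)
    field_simp
    try ring
  · show 1 - ((1 - u * v) / (v * (1 - u))) = (1 - ((1 - u * v) / (1 - u))) * (1 / (u * v))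
    field_simp
    try ring

theorem ok16 : Ok ![3, 0, 4, 2, 1] ![3, 0, 1, 1, 5] := by
  refine Ok.of' fun u v h0 h1 h2 h3 h4 => ?_
  have h4' : 1 - v * u ≠ 0 := by rwa [mul_comm]
  refine ⟨?_, ?_, ?_⟩
  · show ((1 - u * v) / (u * (1 - v))) * (u / 1) = (1 - u * v) / (1 - v)
    field_simp
    try ring
  · show 1 - ((1 - u * v) / (u * (1 - v))) = (1 - ((1 - u * v) / (1 - v))) * (1 / (u * v))
    field_simp
    try ring
  · show 1 - (u / 1) = (1 - ((1 - u * v) / (1 - v))) * (-(1 - v) / v)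
    field_simp
    try ring

theorem ok17 : Ok ![1, 0, 2, 3, 4] ![1, 1, 1, 2, 2] := by
  refine Ok.of' fun u v h0 h1 h2 h3 h4 => ?_
  have h4' : 1 - v * u ≠ 0 := by rwa [mul_comm]
  refine ⟨?_, ?_, ?_⟩
  · show (1 / v) * (1 / u) = 1 / (u * v)
    field_simp
    try ring
  · show 1 - (1 / v) = (1 - (1 / (u * v))) * ((u * (1 - v)) / (1 - u * v))
    field_simp
    try ring
  · show 1 - (1 / u) = (1 - (1 / (u * v))) * ((v * (1 - u)) / (1 - u * v))
    field_simp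
    try ring

theorem ok18 : Ok ![1, 3, 4, 0, 2] ![1, 1, 3, 2, 0] := by
  refine Ok.of' fun u v h0 h1 h2 h3 h4 => ?_
  have h4' : 1 - v * u ≠ 0 := by rwa [mul_comm]
  refine ⟨?_, ?_, ?_⟩
  · show (1 / v) * ((1 - u * v) / (1 - u)) = (1 - u * v) / (v * (1 - u))
    field_simp
    try ring
  · show 1 - (1 / v) = (1 - ((1 - u * v) / (v * (1 - u)))) * ((1 - u) / 1)
    field_simp
    try ring
  · show 1 - ((1 - u * v) / (1 - u)) = (1 - ((1 - u * v) / (v * (1 - u)))) * ((u * v) / 1)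
    field_simp
    try ring

theorem ok19 : Ok ![3, 0, 4, 1, 2] ![2, 1, 0, 1, 5] := by
  refine Ok.of' fun u v h0 h1 h2 h3 h4 => ?_
  have h4' : 1 - v * u ≠ 0 := by rwa [mul_comm]
  refine ⟨?_, ?_, ?_⟩
  · show ((u * (1 - v)) / (1 - u * v)) * (1 / u) = (1 - v) / (1 - u * v)
    field_simp
    try ring
  · show 1 - ((u * (1 - v)) / (1 - u * v)) = (1 - ((1 - v) / (1 - u * v))) * (1 / v)
    field_simp
    try ring
  · show 1 - (1 / u) = (1 - ((1 - v) / (1 - u * v))) * (-(1 - u * v) / (u * v))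
    field_simp
    try ring

theorem ok20 : Ok ![2, 3, 4, 0, 1] ![1, 5, 4, 5, 0] := by
  refine Ok.of' fun u v h0 h1 h2 h3 h4 => ?_
  have h4' : 1 - v * u ≠ 0 := by rwa [mul_comm]
  refine ⟨?_, ?_, ?_⟩
  · show (1 / (u * v)) * (-(u * (1 - v)) / (1 - u)) = -(1 - v) / (v * (1 - u))
    field_simp
    try ring
  · show 1 - (1 / (u * v)) = (1 - (-(1 - v) / (v * (1 - u)))) * (-(1 - u) / u)
    field_simp
    try ring
  · show 1 - (-(u * (1 - v)) / (1 - u)) = (1 - (-(1 - v) / (v * (1 - u)))) * (v / 1)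
    field_simp
    try ring

theorem ok21 : Ok ![3, 4, 0, 1, 2] ![3, 0, 1, 3, 4] := by
  refine Ok.of' fun u v h0 h1 h2 h3 h4 => ?_
  have h4' : 1 - v * u ≠ 0 := by rwa [mul_comm]
  refine ⟨?_, ?_, ?_⟩
  · show ((1 - u * v) / (u * (1 - v))) * ((1 - v) / (1 - u * v)) = 1 / u
    field_simp
    try ring
  · show 1 - ((1 - u * v) / (u * (1 - v))) = (1 - (1 / u)) * (1 / (1 - v))
    field_simp
    try ring
  · show 1 - ((1 - v) / (1 - u * v)) = (1 - (1 / u)) * (-(u * v) / (1 - u * v))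
    field_simp
    try ring

theorem ok22 : Ok ![4, 2, 0, 1, 3] ![3, 4, 4, 5, 0] := by
  refine Ok.of' fun u v h0 h1 h2 h3 h4 => ?_
  have h4' : 1 - v * u ≠ 0 := by rwa [mul_comm]
  refine ⟨?_, ?_, ?_⟩
  · show ((1 - u * v) / (v * (1 - u))) * (-(u * v) / (1 - u * v)) = -u / (1 - u)
    field_simp
    try ring
  · show 1 - ((1 - u * v) / (v * (1 - u))) = (1 - (-u / (1 - u))) * (-(1 - v) / v)
    field_simp
    try ring
  · show 1 - (-(u * v) / (1 - u * v)) = (1 - (-u / (1 - u))) * ((1 - u) / (1 - u * v))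
    field_simp
    try ring

theorem ok23 : Ok ![2, 3, 1, 4, 0] ![4, 3, 4, 0, 5] := by
  refine Ok.of' fun u v h0 h1 h2 h3 h4 => ?_
  have h4' : 1 - v * u ≠ 0 := by rwa [mul_comm]
  refine ⟨?_, ?_, ?_⟩
  · show (-(u * v) / (1 - u * v)) * ((1 - u * v) / (u * (1 - v))) = -v / (1 - v)
    field_simp
    try ring
  · show 1 - (-(u * v) / (1 - u * v)) = (1 - (-v / (1 - v))) * ((1 - v) / (1 - u * v))
    field_simp
    try ring
  · show 1 - ((1 - u * v) / (u * (1 - v))) = (1 - (-v / (1 - v))) * (-(1 - u) / u)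
    field_simp
    try ring

theorem ok24 : Ok ![1, 4, 3, 2, 0] ![1, 2, 0, 5, 1] := by
  refine Ok.of' fun u v h0 h1 h2 h3 h4 => ?_
  have h4' : 1 - v * u ≠ 0 := by rwa [mul_comm]
  refine ⟨?_, ?_, ?_⟩
  · show (1 / v) * ((v * (1 - u)) / (1 - u * v)) = (1 - u) / (1 - u * v)
    field_simp
    try ring
  · show 1 - (1 / v) = (1 - ((1 - u) / (1 - u * v))) * (-(1 - u * v) / (u * v))
    field_simp
    try ring
  · show 1 - ((v * (1 - u)) / (1 - u * v)) = (1 - ((1 - u) / (1 - u * v))) * (1 / u)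
    field_simp
    try ring

theorem ok25 : Ok ![4, 0, 3, 2, 1] ![1, 1, 3, 0, 2] := by
  refine Ok.of' fun u v h0 h1 h2 h3 h4 => ?_
  have h4' : 1 - v * u ≠ 0 := by rwa [mul_comm]
  refine ⟨?_, ?_, ?_⟩
  · show ((1 - u * v) / (1 - v)) * (1 / u) = (1 - u * v) / (u * (1 - v))
    field_simp
    try ring
  · show 1 - ((1 - u * v) / (1 - v)) = (1 - ((1 - u * v) / (u * (1 - v)))) * ((u * v) / 1)
    field_simp
    try ring
  · show 1 - (1 / u) = (1 - ((1 - u * v) / (u * (1 - v)))) * ((1 - v) / 1)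
    field_simp
    try ring

/-- Tables. -/
def tp : Fin 15 → Fin 5 → Fin 5 := ![![0, 1, 2, 3, 4],
    ![0, 4, 3, 2, 1],
    ![3, 2, 0, 4, 1],
    ![2, 3, 0, 1, 4],
    ![4, 0, 3, 1, 2],
    ![2, 4, 3, 0, 1],
    ![4, 2, 0, 3, 1],
    ![1, 3, 0, 2, 4],
    ![4, 1, 2, 0, 3],
    ![1, 4, 3, 0, 2],
    ![1, 0, 2, 3, 4],
    ![1, 3, 4, 0, 2],
    ![2, 3, 4, 0, 1],
    ![4, 2, 0, 1, 3],
    ![1, 4, 3, 2, 0]]

/-- Tables. -/
def tt : Fin 15 → Fin 5 → Fin 6 := ![![0, 0, 0, 0, 0],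
    ![0, 0, 2, 2, 0],
    ![0, 2, 2, 0, 0],
    ![2, 0, 2, 0, 0],
    ![0, 0, 2, 0, 2],
    ![0, 4, 5, 2, 1],
    ![2, 5, 5, 2, 1],
    ![2, 4, 5, 0, 1],
    ![0, 3, 3, 5, 3],
    ![0, 3, 1, 5, 1],
    ![1, 1, 1, 2, 2],
    ![1, 1, 3, 2, 0],
    ![1, 5, 4, 5, 0],
    ![3, 4, 4, 5, 0],
    ![1, 2, 0, 5, 1]]

/-- Tables. -/
def ip : Fin 15 → Fin 5 → Fin 5 := ![![0, 1, 2, 3, 4],
    ![0, 4, 3, 2, 1],
    ![2, 4, 1, 0, 3],
    ![2, 3, 0, 1, 4],
    ![1, 3, 4, 2, 0],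
    ![3, 4, 0, 2, 1],
    ![2, 4, 1, 3, 0],
    ![2, 0, 3, 1, 4],
    ![3, 1, 2, 4, 0],
    ![3, 0, 4, 2, 1],
    ![1, 0, 2, 3, 4],
    ![3, 0, 4, 1, 2],
    ![3, 4, 0, 1, 2],
    ![2, 3, 1, 4, 0],
    ![4, 0, 3, 2, 1]]

/-- Tables. -/
def it : Fin 15 → Fin 5 → Fin 6 := ![![0, 0, 0, 0, 0],
    ![0, 0, 2, 2, 0],
    ![2, 0, 2, 0, 0],
    ![2, 0, 2, 0, 0],
    ![0, 0, 2, 2, 0],
    ![2, 1, 0, 3, 4],
    ![3, 1, 3, 2, 2],
    ![3, 2, 0, 4, 1],
    ![3, 5, 5, 5, 0],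
    ![3, 0, 1, 1, 5],
    ![1, 1, 1, 2, 2],
    ![2, 1, 0, 1, 5],
    ![3, 0, 1, 3, 4],
    ![4, 3, 4, 0, 5],
    ![1, 1, 3, 0, 2]]

theorem okN (ν : Fin 15) : Ok (tp ν) (tt ν) := by
  fin_cases ν
  · exact ok0
  · exact ok1
  · exact ok2
  · exact ok4
  · exact ok5
  · exact ok7
  · exact ok9
  · exact ok11
  · exact ok13
  · exact ok15
  · exact ok17
  · exact ok18
  · exact ok20
  · exact ok22
  · exact ok24

theorem okN' (ν : Fin 15) : Ok (ip ν) (it ν) := by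
  fin_cases ν
  · exact ok0
  · exact ok1
  · exact ok3
  · exact ok4
  · exact ok6
  · exact ok8
  · exact ok10
  · exact ok12
  · exact ok14
  · exact ok16
  · exact ok17
  · exact ok19
  · exact ok21
  · exact ok23
  · exact ok25

theorem invN (ν : Fin 15) : Inv (tp ν) (tt ν) (ip ν) (it ν) := by
  revert ν; decide

theorem invN' (ν : Fin 15) : Inv (ip ν) (it ν) (tp ν) (tt ν) := by
  revert ν; decide

/-- The change of node `kap 0 ⁻¹ ∘ kap ν`. -/
noncomputable def gN (ν : Fin 15) : (Fin 2 → ℂ) → (Fin 2 → ℂ) := mv (tp ν) (tt ν)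

/-- The inverse of `gN ν`. -/
noncomputable def gN' (ν : Fin 15) : (Fin 2 → ℂ) → (Fin 2 → ℂ) := mv (ip ν) (it ν)

/-- `cr j (gN ν w) = AN ν j w / BN ν j w`. -/
noncomputable def AN (ν : Fin 15) (j : Fin 5) (w : Fin 2 → ℂ) : ℂ := (an (tt ν j) (cr (tp ν j) w)).1

/-- `cr j (gN ν w) = AN ν j w / BN ν j w`. -/
noncomputable def BN (ν : Fin 15) (j : Fin 5) (w : Fin 2 → ℂ) : ℂ := (an (tt ν j) (cr (tp ν j) w)).2

/-- The multiplier. -/
noncomputable def mN (ν : Fin 15) (w : Fin 2 → ℂ) : ℂ := ∏ j, BN ν j w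

theorem mN_eq (ν : Fin 15) : mN ν = ml (tp ν) (tt ν) := rfl

/-- **Block ADM.** -/
theorem adm_node (ν : Fin 15) : Adm (gN ν) (gN' ν) (mN ν) :=
  adm (okN ν) (okN' ν) (invN ν) (invN' ν)

theorem F_cr {w : Fin 2 → ℂ} (hw : w ∈ V) (k : Fin 5) (t : Fin 6) :
    af t (cr k w) = F k t (w 0) (w 1) := by
  obtain ⟨a0, a1, a2, a3, a4⟩ := hw
  exact F_eq a0 a1 (sub_ne_zero.2 a2.symm) (sub_ne_zero.2 a3.symm) (sub_ne_zero.2 a4.symm) k t

theorem kap_aux (ν : Fin 15) {u v : ℂ} (h0 : u ≠ 0) (h1 : v ≠ 0) (h2 : 1 - u ≠ 0) (h3 : 1 - v ≠ 0)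
    (h4 : 1 - u * v ≠ 0) :
    H142.kap ν (u, v) = (1 / F (tp ν 4) (tt ν 4) u v, F (tp ν 0) (tt ν 0) u v) := by
  have h4' : 1 - v * u ≠ 0 := by rwa [mul_comm]
  fin_cases ν
  · show (((1 - u * v) / (1 - v), u) : ℂ × ℂ) = (1 / ((1 - v) / (1 - u * v)), u / 1)
    refine Prod.ext ?_ ?_
    · show (1 - u * v) / (1 - v) = 1 / ((1 - v) / (1 - u * v))
      try field_simp
      try ring
    · show u = u / 1
      try field_simp
      try ring
  · show ((1 / v, u) : ℂ × ℂ) = (1 / (v / 1), u / 1)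
    refine Prod.ext ?_ ?_
    · show 1 / v = 1 / (v / 1)
      try field_simp
      try ring
    · show u = u / 1
      try field_simp
      try ring
  · show ((1 / v, (1 - u) / (1 - u * v)) : ℂ × ℂ) = (1 / (v / 1), (1 - u) / (1 - u * v))
    refine Prod.ext ?_ ?_
    · show 1 / v = 1 / (v / 1)
      try field_simp
      try ring
    · show (1 - u) / (1 - u * v) = (1 - u) / (1 - u * v)
      try field_simp
      try ring
  · show (((1 - u * v) / (1 - v), 1 - u * v) : ℂ × ℂ) = (1 / ((1 - v) / (1 - u * v)), (1 - u * v) / 1)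
    refine Prod.ext ?_ ?_
    · show (1 - u * v) / (1 - v) = 1 / ((1 - v) / (1 - u * v))
      try field_simp
      try ring
    · show 1 - u * v = (1 - u * v) / 1
      try field_simp
      try ring
  · show ((1 / (1 - u * v), (1 - v) / (1 - u * v)) : ℂ × ℂ) = (1 / ((1 - u * v) / 1), (1 - v) / (1 - u * v))
    refine Prod.ext ?_ ?_
    · show 1 / (1 - u * v) = 1 / ((1 - u * v) / 1)
      try field_simp
      try ring
    · show (1 - v) / (1 - u * v) = (1 - v) / (1 - u * v)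
      try field_simp
      try ring
  · show ((v, u * v) : ℂ × ℂ) = (1 / (1 / v), (u * v) / 1)
    refine Prod.ext ?_ ?_
    · show v = 1 / (1 / v)
      try field_simp
      try ring
    · show u * v = (u * v) / 1
      try field_simp
      try ring
  · show ((v, v * (1 - u) / (1 - u * v)) : ℂ × ℂ) = (1 / (1 / v), (v * (1 - u)) / (1 - u * v))
    refine Prod.ext ?_ ?_
    · show v = 1 / (1 / v)
      try field_simp
      try ring
    · show v * (1 - u) / (1 - u * v) = (v * (1 - u)) / (1 - u * v)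
      try field_simp
      try ring
  · show (((1 - v) / (1 - u * v), 1 - v) : ℂ × ℂ) = (1 / ((1 - u * v) / (1 - v)), (1 - v) / 1)
    refine Prod.ext ?_ ?_
    · show (1 - v) / (1 - u * v) = 1 / ((1 - u * v) / (1 - v))
      try field_simp
      try ring
    · show 1 - v = (1 - v) / 1
      try field_simp
      try ring
  · show ((u * (1 - v) / (1 - u * v), (1 - v) / (1 - u * v)) : ℂ × ℂ) = (1 / ((1 - u * v) / (u * (1 - v))), (1 - v) / (1 - u * v))
    refine Prod.ext ?_ ?_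
    · show u * (1 - v) / (1 - u * v) = 1 / ((1 - u * v) / (u * (1 - v)))
      try field_simp
      try ring
    · show (1 - v) / (1 - u * v) = (1 - v) / (1 - u * v)
      try field_simp
      try ring
  · show ((u * v, v) : ℂ × ℂ) = (1 / (1 / (u * v)), v / 1)
    refine Prod.ext ?_ ?_
    · show u * v = 1 / (1 / (u * v))
      try field_simp
      try ring
    · show v = v / 1
      try field_simp
      try ring
  · show (((1 - u * v) / (v * (1 - u)), 1 / v) : ℂ × ℂ) = (1 / ((v * (1 - u)) / (1 - u * v)), 1 / v)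
    refine Prod.ext ?_ ?_
    · show (1 - u * v) / (v * (1 - u)) = 1 / ((v * (1 - u)) / (1 - u * v))
      try field_simp
      try ring
    · show 1 / v = 1 / v
      try field_simp
      try ring
  · show ((1 / (u * v), 1 / v) : ℂ × ℂ) = (1 / ((u * v) / 1), 1 / v)
    refine Prod.ext ?_ ?_
    · show 1 / (u * v) = 1 / ((u * v) / 1)
      try field_simp
      try ring
    · show 1 / v = 1 / v
      try field_simp
      try ring
  · show ((1 / v, 1 / (u * v)) : ℂ × ℂ) = (1 / (v / 1), 1 / (u * v))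
    refine Prod.ext ?_ ?_
    · show 1 / v = 1 / (v / 1)
      try field_simp
      try ring
    · show 1 / (u * v) = 1 / (u * v)
      try field_simp
      try ring
  · show (((1 - u * v) / (1 - u), (1 - u * v) / (v * (1 - u))) : ℂ × ℂ) = (1 / ((1 - u) / (1 - u * v)), (1 - u * v) / (v * (1 - u)))
    refine Prod.ext ?_ ?_
    · show (1 - u * v) / (1 - u) = 1 / ((1 - u) / (1 - u * v))
      try field_simp
      try ring
    · show (1 - u * v) / (v * (1 - u)) = (1 - u * v) / (v * (1 - u))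
      try field_simp
      try ring
  · show ((u, 1 / v) : ℂ × ℂ) = (1 / (1 / u), 1 / v)
    refine Prod.ext ?_ ?_
    · show u = 1 / (1 / u)
      try field_simp
      try ring
    · show 1 / v = 1 / v
      try field_simp
      try ring

/-- `gN ν = kap 0 ⁻¹ ∘ kap ν` on `V`. -/
theorem kap_eq (ν : Fin 15) {w : Fin 2 → ℂ} (hw : w ∈ V) :
    H142.kap ν (w 0, w 1) = H142.kap 0 (gN ν w 0, gN ν w 1) := by
  have hg := (adm_node ν).maps w hw
  have c4 := okN ν w hw 4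
  have c0 := okN ν w hw 0
  rw [F_cr hw] at c4 c0
  rw [kap_aux ν hw.1 hw.2.1 (sub_ne_zero.2 hw.2.2.1.symm) (sub_ne_zero.2 hw.2.2.2.1.symm)
    (sub_ne_zero.2 hw.2.2.2.2.symm), ← c4, ← c0]
  show (1 / ((1 - gN ν w 1) / (1 - gN ν w 0 * gN ν w 1)), gN ν w 0) =
    ((1 - gN ν w 0 * gN ν w 1) / (1 - gN ν w 1), gN ν w 0)
  rw [one_div_div]

theorem kap_inj (ν μ : Fin 15) {w z : Fin 2 → ℂ} (hw : w ∈ V) (hz : z ∈ V) :
    H142.kap ν (w 0, w 1) = H142.kap μ (z 0, z 1) ↔ gN ν w = gN μ z := by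
  rw [kap_eq ν hw, kap_eq μ hz]
  constructor
  · intro h
    obtain ⟨b0, b1, b2, b3, b4⟩ := (adm_node ν).maps w hw
    obtain ⟨d0, d1, d2, d3, d4⟩ := (adm_node μ).maps z hz
    have h0 : gN ν w 0 = gN μ z 0 := congrArg Prod.snd h
    have h1 : (1 - gN ν w 0 * gN ν w 1) / (1 - gN ν w 1) =
        (1 - gN μ z 0 * gN μ z 1) / (1 - gN μ z 1) := congrArg Prod.fst h
    rw [h0, div_eq_div_iff (sub_ne_zero.2 b3.symm) (sub_ne_zero.2 d3.symm)] at h1
    have h2 : (gN ν w 1 - gN μ z 1) * (1 - gN μ z 0) = 0 := by linear_combination h1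
    rcases mul_eq_zero.1 h2 with h3 | h3
    · funext k
      fin_cases k
      · exact h0
      · exact sub_eq_zero.1 h3
    · exact absurd (sub_eq_zero.1 h3).symm d2
  · intro h
    rw [h]

/-- The form of a change of node: everything that is used downstream. -/
structure NodeForm (g g' : (Fin 2 → ℂ) → (Fin 2 → ℂ)) (A B : Fin 5 → (Fin 2 → ℂ) → ℂ) : Prop where
  /-- each of the five ratios is an anharmonic transform of a cross ratio -/
  form : ∃ (p : Fin 5 → Fin 5) (t : Fin 5 → Fin 6), Function.Bijective p ∧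
    ∀ j w, (A j w, B j w) = an (t j) (cr (p j) w)
  contA : ∀ j, ContDiffOn ℂ ω (A j) Om
  contB : ∀ j, ContDiffOn ℂ ω (B j) Om
  ne : ∀ j w, ¬ (A j w = 0 ∧ B j w = 0)
  A_ne : ∀ j, ∀ w ∈ V, A j w ≠ 0
  B_ne : ∀ j, ∀ w ∈ V, B j w ≠ 0
  cr_g : ∀ j, ∀ w ∈ V, cr j (g w) = A j w / B j w
  adm : Adm g g' (fun w => ∏ j, B j w)

/-- **Block NODEFORM.** -/
theorem nodeForm (ν : Fin 15) : NodeForm (gN ν) (gN' ν) (AN ν) (BN ν) where
  form := ⟨tp ν, tt ν, ⟨fun a b hab => by rw [← ((invN ν) a).1, ← ((invN ν) b).1, hab],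
    fun a => ⟨ip ν a, ((invN' ν) a).1⟩⟩, fun _ _ => rfl⟩
  contA := fun j => (an_contDiff (tt ν j)).1.comp_contDiffOn (cr_contDiffOn (tp ν j))
  contB := fun j => (an_contDiff (tt ν j)).2.comp_contDiffOn (cr_contDiffOn (tp ν j))
  ne := fun j w => an_ne _ _
  A_ne := fun j w hw => an_fst_ne (cr_ne_zero hw _) (cr_ne_one hw _) _
  B_ne := fun j w hw => an_snd_ne (cr_ne_zero hw _) (cr_ne_one hw _) _
  cr_g := fun j w hw => okN ν w hw j
  adm := adm_node ν

/-- All the two-sided identities of norms. -/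
theorem AN_normSq (ν : Fin 15) (j : Fin 5) (w : Fin 2 → ℂ) :
    ‖AN ν j w‖ ^ 2 + ‖BN ν j w‖ ^ 2 + ‖AN ν j w - BN ν j w‖ ^ 2 =
      1 + ‖cr (tp ν j) w‖ ^ 2 + ‖1 - cr (tp ν j) w‖ ^ 2 := an_normSq _ _

/-- The weight in the homogeneous coordinates of the node `0`, on all of `Om`. -/
theorem exp_phi_eq (ν : Fin 15) (w : Fin 2 → ℂ) :
    Real.exp (phi w) = ∏ j, (‖AN ν j w‖ ^ 2 + ‖BN ν j w‖ ^ 2 + ‖AN ν j w - BN ν j w‖ ^ 2) := by
  have hp : Function.Bijective (tp ν) :=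
    ⟨fun a b hab => by rw [← ((invN ν) a).1, ← ((invN ν) b).1, hab],
      fun a => ⟨ip ν a, ((invN' ν) a).1⟩⟩
  rw [exp_phi, ← hp.prod_comp fun j => 1 + ‖cr j w‖ ^ 2 + ‖1 - cr j w‖ ^ 2]
  exact Finset.prod_congr rfl fun j _ => (AN_normSq ν j w).symm

/-- The ratios `(A_j : B_j)`, `j = 0, …, 4`, separate the points of `Om`. -/
theorem sep_Om (ν : Fin 15) {w z : Fin 2 → ℂ}
    (h : ∀ j, AN ν j w * BN ν j z = AN ν j z * BN ν j w) : w = z := by
  have key : ∀ (t : Fin 6) (c d : ℂ), (an t c).1 * (an t d).2 = (an t d).1 * (an t c).2 →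
      c = d := by
    intro t c d h
    fin_cases t
    · have h' : c * 1 = d * 1 := h
      simpa using h'
    · have h' : 1 * d = 1 * c := h
      simpa using h'.symm
    · have h' : (1 - c) * 1 = (1 - d) * 1 := h
      linear_combination -h'
    · have h' : 1 * (1 - d) = 1 * (1 - c) := h
      linear_combination h'
    · have h' : c * (d - 1) = d * (c - 1) := h
      linear_combination -h'
    · have h' : (c - 1) * d = (d - 1) * c := h
      linear_combination h'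
  have h1 : ∀ k, cr k w = cr k z := by
    intro k
    have h2 := key _ _ _ (h (ip ν k))
    rwa [((invN' ν) k).1] at h2
  exact ext_cr (h1 0) (h1 1)

/-- Cocycle: comparison of the homogeneous coordinates of two nodes over the same point. -/
theorem AN_cross (ν μ : Fin 15) {w z : Fin 2 → ℂ} (hw : w ∈ V) (hz : z ∈ V)
    (h : gN ν w = gN μ z) (j : Fin 5) : AN ν j w * BN μ j z = AN μ j z * BN ν j w := by
  have h1 := (nodeForm ν).cr_g j w hw
  have h2 := (nodeForm μ).cr_g j z hz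
  rw [h, h2] at h1
  rw [div_eq_div_iff ((nodeForm μ).B_ne j z hz) ((nodeForm ν).B_ne j w hw)] at h1
  exact h1.symm

end Vale.Agent.P300.PROJ
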