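import Vale.Agent.P300.PROJ.Main
import Vale.Agent.P300.H749.CmpCpx

/-!
# P300 / PROJ: the chart system of a completed covering

`D : Models q` (helper573), `C : CpxModels D` (helper749): the parametrisations of `D.Cmp` by the
models form a chart system in the sense of `PROJ/Overlap.lean`; the fibres of `D.proj` are seen from
one node.
-/

set_option autoImplicit false
set_option linter.all false

open Set Filter Topology
open scoped Manifold ContDiff LinearAlgebra.Projectivization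

namespace Vale.Agent.P300.PROJ

open Vale.Agent.P300.H573 Vale.Agent.P300.Cpx

variable {Y X0 : Type} [TopologicalSpace Y] [TopologicalSpace X0] {q : X0 → Y} {D : Models q}
  (C : CpxModels D)

/-- the punctured part of a model, in the coordinates -/
def om0 (i : D.I) : Set E2 := {z | ∃ h : z ∈ C.Ω i, C.φ i ⟨z, h⟩ ∈ D.M0 i}

variable [T2Space Y] [LocallyCompactSpace Y]

/-- The chart system of the completion. -/
noncomputable def chartsOf (th : D.I → E2 → X0)
    (hth : ∀ i (z : C.Ω i) (hz : C.φ i z ∈ D.M0 i), th i z = D.h i ⟨C.φ i z, hz⟩) :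
    letI := C.atlas.charted
    Charts E2 D.Cmp X0 D.I :=
  letI := C.atlas.charted
  { Ph := fun i => (C.atlas.e i).symm
    Om0 := om0 C
    th := th
    sub := by
      rintro i z ⟨h, -⟩
      show z ∈ (C.atlas.e i).target
      rw [C.atlas_target i]
      exact h
    dense := by
      intro i z hz
      have hz' : z ∈ C.Ω i := by
        have h1 : z ∈ (C.atlas.e i).target := hz
        rwa [C.atlas_target i] at h1
      have h1 : (⟨z, hz'⟩ : C.Ω i) ∈ closure (C.φ i ⁻¹' D.M0 i) := by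
        rw [← (C.φ i).preimage_closure]
        show C.φ i ⟨z, hz'⟩ ∈ closure (D.M0 i)
        rw [(D.dense_M0 i).closure_eq]
        trivial
      have h2 := mem_closure_image (f := (Subtype.val : C.Ω i → E2))
        continuous_subtype_val.continuousAt h1
      refine closure_mono ?_ h2
      rintro _ ⟨w, hw, rfl⟩
      exact ⟨w.2, hw⟩
    compat := by
      rintro i j z w ⟨hz, hz0⟩ hw hzw
      have hw' : w ∈ C.Ω j := by
        have h1 : w ∈ (C.atlas.e j).target := hw
        rwa [C.atlas_target j] at h1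
      have h1 : D.hat i (C.φ i ⟨z, hz⟩) = D.hat j (C.φ j ⟨w, hw'⟩) := by
        rw [← C.atlas_symm i ⟨z, hz⟩, ← C.atlas_symm j ⟨w, hw'⟩]
        exact hzw
      have h2 : D.hat i (C.φ i ⟨z, hz⟩) = D.incl (D.h i ⟨C.φ i ⟨z, hz⟩, hz0⟩) :=
        (D.incl_h i ⟨_, hz0⟩).symm
      obtain ⟨h3, h4⟩ := D.mem_M0_of_eq_incl (h1.symm.trans h2)
      refine ⟨⟨hw', h3⟩, ?_⟩
      rw [hth i ⟨z, hz⟩ hz0, hth j ⟨w, hw'⟩ h3]
      apply D.incl_injective
      rw [D.incl_h, D.incl_h]
      exact h1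
    cover := by
      intro x
      obtain ⟨i, hi⟩ := C.atlas.cover x
      exact ⟨i, hi⟩
    holo := fun i => C.atlas.e_symm_contMDiffOn i
    holo_symm := fun i => C.atlas.e_contMDiffOn i }

theorem chartsOf_source {th : D.I → E2 → X0}
    {hth : ∀ i (z : C.Ω i) (hz : C.φ i z ∈ D.M0 i), th i z = D.h i ⟨C.φ i z, hz⟩} (i : D.I) :
    letI := C.atlas.charted
    ((chartsOf C th hth).Ph i).source = C.Ω i :=
  C.atlas_target i

theorem chartsOf_apply {th : D.I → E2 → X0}
    {hth : ∀ i (z : C.Ω i) (hz : C.φ i z ∈ D.M0 i), th i z = D.h i ⟨C.φ i z, hz⟩} (i : D.I)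
    (z : C.Ω i) :
    letI := C.atlas.charted
    (chartsOf C th hth).Ph i z = D.hat i (C.φ i z) :=
  C.atlas_symm i z

omit [T2Space Y] [LocallyCompactSpace Y] in
/-- Jets in the models: for every point `z` of a model, the 1-jets at `z` are arbitrary, with zeros
at the other points of the models of the same node over the same point of the node chart. -/
structure JetsOn (th : D.I → E2 → X0) (mu : D.I → E2 → ℂ) (H : Submodule ℂ (X0 → ℂ))
    {P : Type*} (pt : D.I → E2 → P) : Prop where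
  ext : ∀ s ∈ H, ∀ i, ∃ G : E2 → ℂ, DifferentiableOn ℂ G (C.Ω i) ∧
    ∀ z ∈ om0 C i, G z = mu i z * s (th i z)
  jets : ∀ i, ∀ z ∈ C.Ω i, ∀ (α : ℂ) (L : E2 →L[ℂ] ℂ), ∃ s ∈ H,
    (∃ G : E2 → ℂ, DifferentiableOn ℂ G (C.Ω i) ∧
      (∀ z ∈ om0 C i, G z = mu i z * s (th i z)) ∧ G z = α ∧ fderiv ℂ G z = L) ∧
    ∀ j, ∀ w ∈ C.Ω j, D.b j = D.b i → pt j w = pt i z → (j = i → w ≠ z) →
      ∃ G : E2 → ℂ, DifferentiableOn ℂ G (C.Ω j) ∧
        (∀ z ∈ om0 C j, G z = mu j z * s (th j z)) ∧ G w = 0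

omit [T2Space Y] [LocallyCompactSpace Y] in
theorem contDiffOn_of_differentiableOn {Ω : Set E2} (hΩ : IsOpen Ω) {G : E2 → ℂ}
    (hG : DifferentiableOn ℂ G Ω) : ContDiffOn ℂ ω G Ω := by
  have h : ContDiffOn ℂ ω (fun z => fun _ : Unit => G z) Ω := by
    refine contDiffOn_of_diff hΩ ?_
    rw [differentiableOn_pi]
    exact fun _ => hG
  exact contDiffOn_pi.1 h ()

theorem JetsOn.jetHyp {th : D.I → E2 → X0}
    (hth : ∀ i (z : C.Ω i) (hz : C.φ i z ∈ D.M0 i), th i z = D.h i ⟨C.φ i z, hz⟩)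
    {mu : D.I → E2 → ℂ} {H : Submodule ℂ (X0 → ℂ)} {P : Type*} {pt : D.I → E2 → P}
    (hm : ∀ i j (z : C.Ω i) (w : C.Ω j), D.b i = D.b j →
      D.m i (C.φ i z) = D.m j (C.φ j w) → pt j w = pt i z)
    (J : JetsOn C th mu H pt) :
    letI := C.atlas.charted
    JetHyp (chartsOf C th hth) mu H D.b pt D.proj := by
  letI := C.atlas.charted
  have hs : ∀ i, ((chartsOf C th hth).Ph i).source = C.Ω i := fun i => C.atlas_target i
  have ho : ∀ i (z : C.Ω i), (chartsOf C th hth).Ph i z = D.hat i (C.φ i z) :=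
    fun i z => C.atlas_symm i z
  refine ⟨?_, ?_, ?_⟩
  · intro s hsH i
    obtain ⟨G, hG, h⟩ := J.ext s hsH i
    refine ⟨G, ?_, h⟩
    rw [hs]
    exact contDiffOn_of_differentiableOn (C.Ω_open i) hG
  · intro i z hz α L
    rw [hs] at hz
    obtain ⟨s, hsH, ⟨G, hG, h1, h2, h3⟩, h4⟩ := J.jets i z hz α L
    refine ⟨s, hsH, ⟨G, ?_, h1, h2, h3⟩, ?_⟩
    · rw [hs]
      exact contDiffOn_of_differentiableOn (C.Ω_open i) hG
    · intro j w hw hji hpt hne
      rw [hs] at hw
      obtain ⟨G', hG', h1', h2'⟩ := h4 j w hw hji hpt (by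
        rintro rfl rfl
        exact hne rfl)
      refine ⟨G', ?_, h1', h2'⟩
      rw [hs]
      exact contDiffOn_of_differentiableOn (C.Ω_open j) hG'
  · intro i z hz y hy
    rw [hs] at hz
    rw [ho i ⟨z, hz⟩, D.proj_hat] at hy
    have hmem : D.proj y ∈ D.N (D.b i) := by rw [hy]; exact D.m_mem i _
    obtain ⟨j, hj, p, hp⟩ := D.exists_hat_of_mem y (D.b i) hmem
    refine ⟨j, ((C.φ j).symm p : C.Ω j), ?_, hj, ?_, ?_⟩
    · rw [hs]; exact ((C.φ j).symm p).2
    · refine hm i j ⟨z, hz⟩ ((C.φ j).symm p) hj.symm ?_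
      rw [← hy, (C.φ j).apply_symm_apply, hp, D.proj_hat]
    · rw [ho j ((C.φ j).symm p), (C.φ j).apply_symm_apply]
      exact hp.symm

/-- **Chapter E, embedding**: a compact completed covering with jets and five separating maps to
`ℙ¹` is embedded in a projective space. -/
theorem JetsOn.exists_embedding {th : D.I → E2 → X0}
    (hth : ∀ i (z : C.Ω i) (hz : C.φ i z ∈ D.M0 i), th i z = D.h i ⟨C.φ i z, hz⟩)
    {mu : D.I → E2 → ℂ} {H : Submodule ℂ (X0 → ℂ)} {P : Type*} {pt : D.I → E2 → P}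
    (hm : ∀ i j (z : C.Ω i) (w : C.Ω j), D.b i = D.b j →
      D.m i (C.φ i z) = D.m j (C.φ j w) → pt j w = pt i z)
    (J : JetsOn C th mu H pt) [CompactSpace D.Cmp] [Nonempty D.Cmp]
    {ι : Type*} [Fintype ι] {c : ι → D.Cmp → OnePoint ℂ}
    (hc : letI := C.atlas.charted; ∀ i, Emb.IsHolP1 E2 (c i))
    (hq : ∀ x y, (∀ i, c i x = c i y) → D.proj x = D.proj y) :
    letI := C.atlas.charted
    ∃ (N : ℕ) (Φ : D.Cmp → ℙ ℂ (Fin (N + 1) → ℂ)), Function.Injective Φ ∧
      IsProjectiveImmersion E2 Φ := by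
  letI := C.atlas.charted
  haveI := C.atlas.isManifold
  exact (J.jetHyp C hth hm).exists_embedding hc hq

end Vale.Agent.P300.PROJ
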