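import Vale.Agent.P300.PROJ.Sep

/-!
# P300 / PROJ: two constructions of section systems

* `LForm.secs`: the multilinear forms in five projective coordinates `[AA j : BB j]`;
* `Secs.ofSub`: functions on `M` which extend holomorphically after multiplication with `mu a`.
-/

set_option autoImplicit false

open Set Filter Topology
open scoped Manifold ContDiff

namespace Vale.Agent.P300.PROJ

variable {E X M A : Type*} [NormedAddCommGroup E] [NormedSpace ℂ E]
    [TopologicalSpace X] [ChartedSpace E X]

/-- Projective coordinates `c j = [AA j : BB j]` in the parametrisations. -/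
structure LForm (C : Charts E X M A) (J : Type*) where
  c : J → M → ℂ
  AA : A → J → E → ℂ
  BB : A → J → E → ℂ
  analA : ∀ a j, ContDiffOn ℂ ω (AA a j) (C.Ph a).source
  analB : ∀ a j, ContDiffOn ℂ ω (BB a j) (C.Ph a).source
  eq : ∀ a j, ∀ z ∈ C.Om0 a, AA a j z = c j (C.th a z) * BB a j z
  nz : ∀ a j, ∀ z ∈ (C.Ph a).source, AA a j z ≠ 0 ∨ BB a j z ≠ 0

namespace LForm

variable {C : Charts E X M A} {J : Type*} [Fintype J] [DecidableEq J] (L : LForm C J)

/-- The multilinear forms. -/
noncomputable def secs : Secs C (Finset J → ℂ) where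
  val t m := ∑ I, t I * ∏ j ∈ I, L.c j m
  mu a z := ∏ j, L.BB a j z
  F a :=
    { toFun := fun t z => ∑ I, t I * ((∏ j ∈ I, L.AA a j z) * ∏ j ∈ Finset.univ \ I, L.BB a j z)
      map_add' := fun s t => by
        ext z
        simp only [Pi.add_apply, add_mul, Finset.sum_add_distrib]
      map_smul' := fun r t => by
        ext z
        simp only [Pi.smul_apply, smul_eq_mul, RingHom.id_apply, Finset.mul_sum, mul_assoc] }
  eq := by
    intro a t z hz
    simp only [LinearMap.coe_mk, AddHom.coe_mk, Finset.mul_sum]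
    refine Finset.sum_congr rfl fun I _ => ?_
    have h1 : ∏ j ∈ I, L.AA a j z = (∏ j ∈ I, L.c j (C.th a z)) * ∏ j ∈ I, L.BB a j z := by
      rw [← Finset.prod_mul_distrib]
      exact Finset.prod_congr rfl fun j _ => L.eq a j z hz
    have h2 : (∏ j ∈ Finset.univ \ I, L.BB a j z) * ∏ j ∈ I, L.BB a j z = ∏ j, L.BB a j z :=
      Finset.prod_sdiff (Finset.subset_univ I)
    rw [h1, ← h2]
    ring
  anal := by
    intro a t
    simp only [LinearMap.coe_mk, AddHom.coe_mk]
    exact ContDiffOn.sum fun I _ => contDiffOn_const.mul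
      ((contDiffOn_prod fun j _ => L.analA a j).mul (contDiffOn_prod fun j _ => L.analB a j))

/-- products of linear forms -/
theorem F_prod (a : A) (α β : J → ℂ) (z : E) :
    L.secs.F a (fun I => (∏ j ∈ I, α j) * ∏ j ∈ Finset.univ \ I, β j) z =
      ∏ j, (α j * L.AA a j z + β j * L.BB a j z) := by
  simp only [secs, LinearMap.coe_mk, AddHom.coe_mk]
  rw [Finset.prod_add, Finset.powerset_univ]
  refine Finset.sum_congr rfl fun I _ => ?_
  rw [Finset.prod_mul_distrib, Finset.prod_mul_distrib]
  ring

theorem exists_ne (p q : ℂ) (h : p ≠ 0 ∨ q ≠ 0) : ∃ α β : ℂ, α * p + β * q ≠ 0 := by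
  rcases h with h | h
  · exact ⟨1, 0, by simpa using h⟩
  · exact ⟨0, 1, by simpa using h⟩

theorem bpf (a : A) (y : X) (hy : y ∈ (C.Ph a).target) : ∃ t, L.secs.tau a t y ≠ 0 := by
  have hz := (C.Ph a).map_target hy
  choose α β h using fun j => exists_ne (L.AA a j ((C.Ph a).symm y)) (L.BB a j ((C.Ph a).symm y))
    (L.nz a j _ hz)
  refine ⟨fun I => (∏ j ∈ I, α j) * ∏ j ∈ Finset.univ \ I, β j, ?_⟩
  rw [Secs.tau_apply, F_prod]
  exact Finset.prod_ne_zero_iff.2 fun j _ => h j

/-- points with different projective coordinates are separated -/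
theorem sep {a b : A} {x y : X} (_hx : x ∈ (C.Ph a).target) (hy : y ∈ (C.Ph b).target) (j : J)
    (hj : L.AA a j ((C.Ph a).symm x) * L.BB b j ((C.Ph b).symm y) ≠
      L.AA b j ((C.Ph b).symm y) * L.BB a j ((C.Ph a).symm x)) :
    ∃ t, L.secs.tau a t x = 0 ∧ L.secs.tau b t y ≠ 0 := by
  have hz := (C.Ph b).map_target hy
  choose α β h using fun i => exists_ne (L.AA b i ((C.Ph b).symm y)) (L.BB b i ((C.Ph b).symm y))
    (L.nz b i _ hz)
  set α' : J → ℂ := Function.update α j (L.BB a j ((C.Ph a).symm x)) with hα'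
  set β' : J → ℂ := Function.update β j (-(L.AA a j ((C.Ph a).symm x))) with hβ'
  refine ⟨fun I => (∏ i ∈ I, α' i) * ∏ i ∈ Finset.univ \ I, β' i, ?_, ?_⟩
  · rw [Secs.tau_apply, F_prod]
    refine Finset.prod_eq_zero (Finset.mem_univ j) ?_
    simp only [hα', hβ', Function.update_self]
    ring
  · rw [Secs.tau_apply, F_prod]
    refine Finset.prod_ne_zero_iff.2 fun i _ => ?_
    by_cases hi : i = j
    · subst hi
      simp only [hα', hβ', Function.update_self]
      intro h0
      apply hj
      linear_combination -h0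
    · simp only [hα', hβ', Function.update_of_ne hi]
      exact h i

end LForm

namespace Secs

variable {C : Charts E X M A}

/-- uniqueness of extensions -/
theorem ext_unique (a : A) {G G' : E → ℂ} (hG : ContinuousOn G (C.Ph a).source)
    (hG' : ContinuousOn G' (C.Ph a).source) (h : ∀ z ∈ C.Om0 a, G z = G' z) :
    ∀ z ∈ (C.Ph a).source, G z = G' z := by
  intro z hz
  have h1 : ContinuousAt G z := hG.continuousAt ((C.Ph a).open_source.mem_nhds hz)
  have h2 : ContinuousAt G' z := hG'.continuousAt ((C.Ph a).open_source.mem_nhds hz)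
  have hne : (𝓝[C.Om0 a] z).NeBot := mem_closure_iff_nhdsWithin_neBot.1 (C.dense a hz)
  refine tendsto_nhds_unique (h1.tendsto.mono_left nhdsWithin_le_nhds : Tendsto G (𝓝[C.Om0 a] z) _)
    ((h2.tendsto.mono_left nhdsWithin_le_nhds : Tendsto G' (𝓝[C.Om0 a] z) _).congr' ?_)
  filter_upwards [self_mem_nhdsWithin] with y hy
  exact (h y hy).symm

/-- The functions on `M` which extend holomorphically to all the parametrisations after
multiplication with `mu a`, as a section system. -/
noncomputable def ofSub (C : Charts E X M A) (mu : A → E → ℂ) (H : Submodule ℂ (M → ℂ))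
    (hH : ∀ s ∈ H, ∀ a, ∃ G : E → ℂ, ContDiffOn ℂ ω G (C.Ph a).source ∧
      ∀ z ∈ C.Om0 a, G z = mu a z * s (C.th a z)) : Secs C H where
  val s := s.1
  mu := mu
  F a :=
    { toFun := fun s => indicator (C.Ph a).source (hH s.1 s.2 a).choose
      map_add' := fun s t => by
        ext z
        by_cases hz : z ∈ (C.Ph a).source
        · simp only [Pi.add_apply, indicator_of_mem hz]
          refine ext_unique (C := C) a (hH _ (s + t).2 a).choose_spec.1.continuousOn
            ((hH _ s.2 a).choose_spec.1.continuousOn.add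
              (hH _ t.2 a).choose_spec.1.continuousOn) ?_ z hz
          intro y hy
          rw [Pi.add_apply, (hH _ (s + t).2 a).choose_spec.2 y hy,
            (hH _ s.2 a).choose_spec.2 y hy, (hH _ t.2 a).choose_spec.2 y hy]
          simp only [Submodule.coe_add, Pi.add_apply]
          ring
        · simp only [Pi.add_apply, indicator_of_notMem hz, add_zero]
      map_smul' := fun r s => by
        ext z
        by_cases hz : z ∈ (C.Ph a).source
        · simp only [Pi.smul_apply, indicator_of_mem hz, RingHom.id_apply, smul_eq_mul]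
          refine ext_unique (C := C) a (hH _ (r • s).2 a).choose_spec.1.continuousOn
            (continuousOn_const.mul (hH _ s.2 a).choose_spec.1.continuousOn) ?_ z hz
          intro y hy
          rw [Pi.mul_apply, (hH _ (r • s).2 a).choose_spec.2 y hy,
            (hH _ s.2 a).choose_spec.2 y hy]
          simp only [SetLike.val_smul, Pi.smul_apply, smul_eq_mul]
          ring
        · simp only [Pi.smul_apply, indicator_of_notMem hz, smul_zero, RingHom.id_apply] }
  eq := by
    intro a s z hz
    simp only [LinearMap.coe_mk, AddHom.coe_mk, indicator_of_mem (C.sub a hz)]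
    exact (hH _ s.2 a).choose_spec.2 z hz
  anal := by
    intro a s
    simp only [LinearMap.coe_mk, AddHom.coe_mk]
    refine (hH _ s.2 a).choose_spec.1.congr fun z hz => ?_
    rw [indicator_of_mem hz]

theorem ofSub_F {mu : A → E → ℂ} {H : Submodule ℂ (M → ℂ)}
    {hH : ∀ s ∈ H, ∀ a, ∃ G : E → ℂ, ContDiffOn ℂ ω G (C.Ph a).source ∧
      ∀ z ∈ C.Om0 a, G z = mu a z * s (C.th a z)} (a : A) (s : H) {G : E → ℂ}
    (hG : ContinuousOn G (C.Ph a).source) (h : ∀ z ∈ C.Om0 a, G z = mu a z * s.1 (C.th a z)) :
    ∀ z ∈ (C.Ph a).source, (ofSub C mu H hH).F a s z = G z := by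
  refine ext_unique (C := C) a ((ofSub C mu H hH).anal a s).continuousOn hG fun z hz => ?_
  rw [(ofSub C mu H hH).eq a s z hz, h z hz]
  rfl

end Secs

end Vale.Agent.P300.PROJ
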