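import Vale.Agent.P300.PROJ.Node
import Vale.Agent.P300.H266.Sys

/-!
# P300 / PROJ, block NODEFORM, part 2: jacobian determinant and multiplier of the node changes
-/

set_option autoImplicit false

open Set Filter Topology
open scoped ContDiff

namespace Vale.Agent.P300.PROJ

open Vale.Agent.P300.H266

/-- An admissible change of node is a local biholomorphism. -/
theorem det_ne_of_adm {g g' : (Fin 2 → ℂ) → (Fin 2 → ℂ)} {m : (Fin 2 → ℂ) → ℂ} (h : Adm g g' m)
    {z : Fin 2 → ℂ} (hz : z ∈ V) : (fderiv ℂ g z).det ≠ 0 := by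
  intro h0
  have h1 := NodeSys.det_comp (a := g') (b := g) (x := z)
    (h.diff'.differentiableAt (isOpen_V.mem_nhds (h.maps z hz)))
    (h.diff.differentiableAt (isOpen_V.mem_nhds hz))
  have h2 : (fun y => g' (g y)) =ᶠ[𝓝 z] id := by
    filter_upwards [isOpen_V.mem_nhds hz] with y hy using h.left y hy
  rw [h2.fderiv_eq, fderiv_id, h0, mul_zero] at h1
  rw [ContinuousLinearMap.det] at h1
  simp at h1

theorem det_gN_ne (ν : Fin 15) {z : Fin 2 → ℂ} (hz : z ∈ V) : (fderiv ℂ (gN ν) z).det ≠ 0 :=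
  det_ne_of_adm (adm_node ν) hz

theorem det_gN'_ne (ν : Fin 15) {z : Fin 2 → ℂ} (hz : z ∈ V) : (fderiv ℂ (gN' ν) z).det ≠ 0 :=
  det_ne_of_adm (adm_node ν).symm hz

/-- The multiplier is holomorphic on the whole node chart. -/
theorem mN_contDiffOn (ν : Fin 15) : ContDiffOn ℂ ω (mN ν) Om := by
  have e := (nodeForm ν).contB
  have h : mN ν = fun w => BN ν 0 w * BN ν 1 w * BN ν 2 w * BN ν 3 w * BN ν 4 w := by
    funext w
    simp only [mN, Fin.prod_univ_five]
  rw [h]
  exact ((((e 0).mul (e 1)).mul (e 2)).mul (e 3)).mul (e 4)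

theorem mN_differentiableOn (ν : Fin 15) : DifferentiableOn ℂ (mN ν) Om :=
  (mN_contDiffOn ν).differentiableOn (by simp)

theorem mN_ne (ν : Fin 15) {z : Fin 2 → ℂ} (hz : z ∈ V) : mN ν z ≠ 0 := (adm_node ν).mne z hz

theorem AN_contDiffOn (ν : Fin 15) (j : Fin 5) : ContDiffOn ℂ ω (AN ν j) Om := (nodeForm ν).contA j

theorem BN_contDiffOn (ν : Fin 15) (j : Fin 5) : ContDiffOn ℂ ω (BN ν j) Om := (nodeForm ν).contB j

theorem AN_differentiableOn (ν : Fin 15) (j : Fin 5) : DifferentiableOn ℂ (AN ν j) Om :=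
  (AN_contDiffOn ν j).differentiableOn (by simp)

theorem BN_differentiableOn (ν : Fin 15) (j : Fin 5) : DifferentiableOn ℂ (BN ν j) Om :=
  (BN_contDiffOn ν j).differentiableOn (by simp)

/-- The coordinates of the base node, times the denominators, are holomorphic on `Om`: products
`∏ (α_j cr_j (g w) + β_j)` times the multiplier extend. -/
theorem prod_cr_mul (ν : Fin 15) (α β : Fin 5 → ℂ) {w : Fin 2 → ℂ} (hw : w ∈ V) :
    (∏ j, (α j * cr j (gN ν w) + β j)) * mN ν w = ∏ j, (α j * AN ν j w + β j * BN ν j w) := by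
  rw [mN, ← Finset.prod_mul_distrib]
  refine Finset.prod_congr rfl fun j _ => ?_
  rw [(nodeForm ν).cr_g j w hw]
  have h : BN ν j w ≠ 0 := (nodeForm ν).B_ne j w hw
  field_simp

/-- The same for products over a part of the indices. -/
theorem prod_sub_mul (ν : Fin 15) (s : Finset (Fin 5)) {w : Fin 2 → ℂ} (hw : w ∈ V) :
    (∏ j ∈ s, cr j (gN ν w)) * mN ν w = (∏ j ∈ s, AN ν j w) * ∏ j ∈ sᶜ, BN ν j w := by
  have h1 : (∏ j ∈ s, cr j (gN ν w)) * ∏ j ∈ s, BN ν j w = ∏ j ∈ s, AN ν j w := by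
    rw [← Finset.prod_mul_distrib]
    refine Finset.prod_congr rfl fun j _ => ?_
    rw [(nodeForm ν).cr_g j w hw, div_mul_cancel₀ _ ((nodeForm ν).B_ne j w hw)]
  rw [mN, ← Finset.prod_mul_prod_compl s, ← mul_assoc, h1]

/-- The multiplier and the powers of the homogeneous coordinates are bounded near the points of
`Om` (they are continuous). -/
theorem mN_continuousOn (ν : Fin 15) : ContinuousOn (mN ν) Om := (mN_contDiffOn ν).continuousOn

end Vale.Agent.P300.PROJ
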