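import Vale.Agent.P300.H266.Model

/-!
# P300 / PROJ, block NODEFORM (E4a): changes of node in the form of cross ratios

Anharmonic pairs `an t c = (A, B)`, `A / B` one of the six anharmonic transforms of `c`,
`|A|² + |B|² + |A - B|² = |c|² + 1 + |1 - c|²`. A change of node `mv p t` has
`cr j (mv p t w) = A_j / B_j`, `(A_j, B_j) = an (t j) (cr (p j) w)`.
-/

set_option autoImplicit false

open Set
open scoped ContDiff

namespace Vale.Agent.P300.PROJ

open Vale.Agent.P300.H266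

/-- The anharmonic pairs. -/
def an : Fin 6 → ℂ → ℂ × ℂ
  | 0, c => (c, 1)
  | 1, c => (1, c)
  | 2, c => (1 - c, 1)
  | 3, c => (1, 1 - c)
  | 4, c => (c, c - 1)
  | 5, c => (c - 1, c)

/-- The anharmonic transforms. -/
noncomputable def af (t : Fin 6) (c : ℂ) : ℂ := (an t c).1 / (an t c).2

/-- Inverses in the anharmonic group. -/
def ai : Fin 6 → Fin 6 := ![0, 1, 2, 5, 4, 3]

theorem an_normSq (t : Fin 6) (c : ℂ) :
    ‖(an t c).1‖ ^ 2 + ‖(an t c).2‖ ^ 2 + ‖(an t c).1 - (an t c).2‖ ^ 2 =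
      1 + ‖c‖ ^ 2 + ‖1 - c‖ ^ 2 := by
  have h1 : ‖c - 1‖ = ‖1 - c‖ := norm_sub_rev _ _
  fin_cases t
  · simp only [an, norm_one]; rw [h1]; ring
  · simp only [an, norm_one]; ring
  · have h2 : (1 - c - 1 : ℂ) = -c := by ring
    simp only [an, norm_one]; rw [h2, norm_neg]; ring
  · have h2 : (1 - (1 - c) : ℂ) = c := by ring
    simp only [an, norm_one]; rw [h2]; ring
  · have h2 : (c - (c - 1) : ℂ) = 1 := by ring
    simp only [an]; rw [h2, h1, norm_one]; ring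
  · have h2 : (c - 1 - c : ℂ) = -1 := by ring
    simp only [an]; rw [h2, h1, norm_neg, norm_one]; ring

theorem an_ne (t : Fin 6) (c : ℂ) : ¬ ((an t c).1 = 0 ∧ (an t c).2 = 0) := by
  rintro ⟨h1, h2⟩
  have h := an_normSq t c
  rw [h1, h2] at h
  have h3 := sq_nonneg ‖c‖
  have h4 := sq_nonneg ‖1 - c‖
  simp at h
  linarith

theorem an_fst_ne {c : ℂ} (h0 : c ≠ 0) (h1 : c ≠ 1) (t : Fin 6) : (an t c).1 ≠ 0 := by
  fin_cases t
  · exact h0
  · exact one_ne_zero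
  · exact sub_ne_zero.2 h1.symm
  · exact one_ne_zero
  · exact h0
  · exact sub_ne_zero.2 h1

theorem an_snd_ne {c : ℂ} (h0 : c ≠ 0) (h1 : c ≠ 1) (t : Fin 6) : (an t c).2 ≠ 0 := by
  fin_cases t
  · exact one_ne_zero
  · exact h0
  · exact one_ne_zero
  · exact sub_ne_zero.2 h1.symm
  · exact sub_ne_zero.2 h1
  · exact h0

theorem an_ne_an {c : ℂ} (h0 : c ≠ 0) (h1 : c ≠ 1) (t : Fin 6) : (an t c).1 ≠ (an t c).2 := by
  intro h
  have h2 : (an t c).1 - (an t c).2 = 0 := sub_eq_zero.2 h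
  revert h2
  fin_cases t
  · intro h2; exact sub_ne_zero.2 h1 h2
  · intro h2; exact sub_ne_zero.2 h1.symm h2
  · intro h2
    have h3 : (1 - c - 1 : ℂ) = 0 := h2
    exact h0 (by linear_combination -h3)
  · intro h2
    have h3 : (1 - (1 - c) : ℂ) = 0 := h2
    exact h0 (by linear_combination h3)
  · intro h2
    have h3 : (c - (c - 1) : ℂ) = 0 := h2
    exact one_ne_zero (α := ℂ) (by linear_combination h3)
  · intro h2
    have h3 : (c - 1 - c : ℂ) = 0 := h2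
    exact one_ne_zero (α := ℂ) (by linear_combination -h3)

theorem af_ne_zero {c : ℂ} (h0 : c ≠ 0) (h1 : c ≠ 1) (t : Fin 6) : af t c ≠ 0 :=
  div_ne_zero (an_fst_ne h0 h1 t) (an_snd_ne h0 h1 t)

theorem af_ne_one {c : ℂ} (h0 : c ≠ 0) (h1 : c ≠ 1) (t : Fin 6) : af t c ≠ 1 := by
  intro h
  rw [af, div_eq_one_iff_eq (an_snd_ne h0 h1 t)] at h
  exact an_ne_an h0 h1 t h

theorem af_ai {c : ℂ} (h0 : c ≠ 0) (h1 : c ≠ 1) (t : Fin 6) : af t (af (ai t) c) = c := by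
  have h2 : c - 1 ≠ 0 := sub_ne_zero.2 h1
  have h3 : 1 - c ≠ 0 := sub_ne_zero.2 h1.symm
  fin_cases t
  · show c / 1 / 1 = c
    simp
  · show 1 / (1 / c) = c
    simp
  · show (1 - (1 - c) / 1) / 1 = c
    simp
  · show 1 / (1 - (c - 1) / c) = c
    have h4 : 1 - (c - 1) / c = 1 / c := by field_simp; ring
    rw [h4, one_div_one_div]
  · show c / (c - 1) / (c / (c - 1) - 1) = c
    have h4 : c / (c - 1) - 1 = 1 / (c - 1) := by field_simp; ring
    rw [h4]; field_simp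
  · show (1 / (1 - c) - 1) / (1 / (1 - c)) = c
    have h4 : 1 / (1 - c) - 1 = c / (1 - c) := by field_simp; ring
    rw [h4]; field_simp

theorem ai_ai (t : Fin 6) : ai (ai t) = t := by
  revert t; decide

/-! ### the cross ratios -/

theorem sub_ne {w : Fin 2 → ℂ} (hw : w ∈ Om) : 1 - w 0 * w 1 ≠ 0 := sub_ne_zero.2 hw.2.2.symm

theorem cr_ne_zero {w : Fin 2 → ℂ} (hw : w ∈ V) (k : Fin 5) : cr k w ≠ 0 := by
  obtain ⟨h0, h1, h2, h3, h4⟩ := hw
  have h5 : 1 - w 0 * w 1 ≠ 0 := sub_ne_zero.2 h4.symm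
  fin_cases k
  · exact h0
  · exact h1
  · exact mul_ne_zero h0 h1
  · exact div_ne_zero (sub_ne_zero.2 h2.symm) h5
  · exact div_ne_zero (sub_ne_zero.2 h3.symm) h5

theorem cr_ne_one {w : Fin 2 → ℂ} (hw : w ∈ V) (k : Fin 5) : cr k w ≠ 1 := by
  obtain ⟨h0, h1, h2, h3, h4⟩ := hw
  have h5 : 1 - w 0 * w 1 ≠ 0 := sub_ne_zero.2 h4.symm
  fin_cases k
  · exact h2
  · exact h3
  · exact h4
  · show (1 - w 0) / (1 - w 0 * w 1) ≠ 1
    rw [Ne, div_eq_one_iff_eq h5]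
    intro h
    have h6 : w 0 * (w 1 - 1) = 0 := by linear_combination h
    rcases mul_eq_zero.1 h6 with h7 | h7
    · exact h0 h7
    · exact h3 (sub_eq_zero.1 h7)
  · show (1 - w 1) / (1 - w 0 * w 1) ≠ 1
    rw [Ne, div_eq_one_iff_eq h5]
    intro h
    have h6 : w 1 * (w 0 - 1) = 0 := by linear_combination h
    rcases mul_eq_zero.1 h6 with h7 | h7
    · exact h1 h7
    · exact h2 (sub_eq_zero.1 h7)

theorem cr_contDiffOn (k : Fin 5) : ContDiffOn ℂ ω (cr k) Om := by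
  have e0 : ContDiffOn ℂ ω (fun w : Fin 2 → ℂ => w 0) Om := (contDiff_apply ℂ ℂ 0).contDiffOn
  have e1 : ContDiffOn ℂ ω (fun w : Fin 2 → ℂ => w 1) Om := (contDiff_apply ℂ ℂ 1).contDiffOn
  fin_cases k
  · exact e0
  · exact e1
  · exact e0.mul e1
  · exact (contDiffOn_const.sub e0).div (contDiffOn_const.sub (e0.mul e1)) fun w hw => sub_ne hw
  · exact (contDiffOn_const.sub e1).div (contDiffOn_const.sub (e0.mul e1)) fun w hw => sub_ne hw

theorem an_contDiff (t : Fin 6) :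
    ContDiff ℂ ω (fun c => (an t c).1) ∧ ContDiff ℂ ω (fun c => (an t c).2) := by
  fin_cases t
  · exact ⟨contDiff_id, contDiff_const⟩
  · exact ⟨contDiff_const, contDiff_id⟩
  · exact ⟨contDiff_const.sub contDiff_id, contDiff_const⟩
  · exact ⟨contDiff_const, contDiff_const.sub contDiff_id⟩
  · exact ⟨contDiff_id, contDiff_id.sub contDiff_const⟩
  · exact ⟨contDiff_id.sub contDiff_const, contDiff_id⟩

/-! ### changes of node -/

/-- The change of node of a table. -/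
noncomputable def mv (p : Fin 5 → Fin 5) (t : Fin 5 → Fin 6) (w : Fin 2 → ℂ) : Fin 2 → ℂ :=
  ![af (t 0) (cr (p 0) w), af (t 1) (cr (p 1) w)]

/-- The table describes all five cross ratios. -/
def Ok (p : Fin 5 → Fin 5) (t : Fin 5 → Fin 6) : Prop :=
  ∀ w ∈ V, ∀ k, cr k (mv p t w) = af (t k) (cr (p k) w)

theorem Ok.of {p : Fin 5 → Fin 5} {t : Fin 5 → Fin 6}
    (h2 : ∀ u v : ℂ, u ≠ 0 → v ≠ 0 → 1 - u ≠ 0 → 1 - v ≠ 0 → 1 - u * v ≠ 0 →
      af (t 0) (![u, v, u * v, (1 - u) / (1 - u * v), (1 - v) / (1 - u * v)] (p 0)) *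
        af (t 1) (![u, v, u * v, (1 - u) / (1 - u * v), (1 - v) / (1 - u * v)] (p 1)) =
        af (t 2) (![u, v, u * v, (1 - u) / (1 - u * v), (1 - v) / (1 - u * v)] (p 2)) ∧
      1 - af (t 0) (![u, v, u * v, (1 - u) / (1 - u * v), (1 - v) / (1 - u * v)] (p 0)) =
        (1 - af (t 2) (![u, v, u * v, (1 - u) / (1 - u * v), (1 - v) / (1 - u * v)] (p 2))) *
        af (t 3) (![u, v, u * v, (1 - u) / (1 - u * v), (1 - v) / (1 - u * v)] (p 3)) ∧
      1 - af (t 1) (![u, v, u * v, (1 - u) / (1 - u * v), (1 - v) / (1 - u * v)] (p 1)) =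
        (1 - af (t 2) (![u, v, u * v, (1 - u) / (1 - u * v), (1 - v) / (1 - u * v)] (p 2))) *
        af (t 4) (![u, v, u * v, (1 - u) / (1 - u * v), (1 - v) / (1 - u * v)] (p 4))) :
    Ok p t := by
  intro w hw k
  have hw' := hw
  obtain ⟨a0, a1, a2, a3, a4⟩ := hw'
  obtain ⟨h2, h3, h4⟩ := h2 (w 0) (w 1) a0 a1 (sub_ne_zero.2 a2.symm) (sub_ne_zero.2 a3.symm)
    (sub_ne_zero.2 a4.symm)
  have e2 : af (t 0) (cr (p 0) w) * af (t 1) (cr (p 1) w) = af (t 2) (cr (p 2) w) := h2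
  have h5 : 1 - af (t 2) (cr (p 2) w) ≠ 0 :=
    sub_ne_zero.2 (af_ne_one (cr_ne_zero hw _) (cr_ne_one hw _) _).symm
  fin_cases k
  · rfl
  · rfl
  · exact h2
  · show (1 - af (t 0) (cr (p 0) w)) / (1 - af (t 0) (cr (p 0) w) * af (t 1) (cr (p 1) w)) = _
    rw [e2, div_eq_iff h5, mul_comm]
    exact h3
  · show (1 - af (t 1) (cr (p 1) w)) / (1 - af (t 0) (cr (p 0) w) * af (t 1) (cr (p 1) w)) = _
    rw [e2, div_eq_iff h5, mul_comm]
    exact h4

variable {p p' : Fin 5 → Fin 5} {t t' : Fin 5 → Fin 6}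

theorem mv_maps (h : Ok p t) : ∀ w ∈ V, mv p t w ∈ V := by
  intro w hw
  have c0 := h w hw 0
  have c1 := h w hw 1
  have c2 := h w hw 2
  rw [cr_zero] at c0
  rw [cr_one] at c1
  rw [cr_two] at c2
  have z : ∀ k, af (t k) (cr (p k) w) ≠ 0 := fun k => af_ne_zero (cr_ne_zero hw _) (cr_ne_one hw _) _
  have o : ∀ k, af (t k) (cr (p k) w) ≠ 1 := fun k => af_ne_one (cr_ne_zero hw _) (cr_ne_one hw _) _
  exact ⟨c0 ▸ z 0, c1 ▸ z 1, c0 ▸ o 0, c1 ▸ o 1, c2 ▸ o 2⟩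

theorem mv_diff : DifferentiableOn ℂ (mv p t) V := by
  have h : ∀ k, DifferentiableOn ℂ (fun w => af (t k) (cr (p k) w)) V := by
    intro k
    have e : DifferentiableOn ℂ (cr (p k)) V :=
      ((cr_contDiffOn (p k)).mono V_sub).differentiableOn (by simp)
    have a1 := ((an_contDiff (t k)).1.differentiable (by simp)).comp_differentiableOn e
    have a2 := ((an_contDiff (t k)).2.differentiable (by simp)).comp_differentiableOn e
    have a3 := a1.mul (a2.inv fun w hw => an_snd_ne (cr_ne_zero hw _) (cr_ne_one hw _) _)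
    refine a3.congr fun w _ => ?_
    show (an (t k) (cr (p k) w)).1 / (an (t k) (cr (p k) w)).2 = _
    rw [div_eq_mul_inv]
    rfl
  rw [differentiableOn_pi]
  intro k
  fin_cases k
  · exact h 0
  · exact h 1

/-- Inverse tables. -/
def Inv (p : Fin 5 → Fin 5) (t : Fin 5 → Fin 6) (p' : Fin 5 → Fin 5) (t' : Fin 5 → Fin 6) : Prop :=
  ∀ k, p' (p k) = k ∧ t' (p k) = ai (t k)

instance (p : Fin 5 → Fin 5) (t : Fin 5 → Fin 6) (p' : Fin 5 → Fin 5) (t' : Fin 5 → Fin 6) :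
    Decidable (Inv p t p' t') := by
  unfold Inv; infer_instance

theorem ext_cr {w z : Fin 2 → ℂ} (h0 : cr 0 w = cr 0 z) (h1 : cr 1 w = cr 1 z) : w = z := by
  funext k
  fin_cases k
  · exact h0
  · exact h1

theorem mv_left (h : Ok p t) (h' : Ok p' t') (hi : Inv p' t' p t) :
    ∀ w ∈ V, mv p' t' (mv p t w) = w := by
  intro w hw
  have key : ∀ k, cr k (mv p' t' (mv p t w)) = cr k w := by
    intro k
    rw [h' _ (mv_maps h w hw), h w hw, (hi k).1, (hi k).2,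
      af_ai (cr_ne_zero hw _) (cr_ne_one hw _)]
  exact ext_cr (key 0) (key 1)

/-- The multiplier. -/
noncomputable def ml (p : Fin 5 → Fin 5) (t : Fin 5 → Fin 6) (w : Fin 2 → ℂ) : ℂ :=
  ∏ j, (an (t j) (cr (p j) w)).2

theorem ml_diff : DifferentiableOn ℂ (ml p t) V := by
  have e : ∀ k, DifferentiableOn ℂ (fun w => (an (t k) (cr (p k) w)).2) V := fun k =>
    ((an_contDiff (t k)).2.differentiable (by simp)).comp_differentiableOn
      (((cr_contDiffOn (p k)).mono V_sub).differentiableOn (by simp))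
  have h : ml p t = fun w => (an (t 0) (cr (p 0) w)).2 * (an (t 1) (cr (p 1) w)).2 *
      (an (t 2) (cr (p 2) w)).2 * (an (t 3) (cr (p 3) w)).2 * (an (t 4) (cr (p 4) w)).2 := by
    funext w
    simp only [ml, Fin.prod_univ_five]
  rw [h]
  exact ((((e 0).mul (e 1)).mul (e 2)).mul (e 3)).mul (e 4)

theorem ml_ne : ∀ w ∈ V, ml p t w ≠ 0 := fun _ hw =>
  Finset.prod_ne_zero_iff.2 fun _ _ => an_snd_ne (cr_ne_zero hw _) (cr_ne_one hw _) _

theorem ml_wt (h : Ok p t) (hp : Function.Bijective p) :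
    ∀ w ∈ V, Real.exp (phi (mv p t w)) * ‖ml p t w‖ ^ 2 = Real.exp (phi w) := by
  intro w hw
  rw [exp_phi, exp_phi, ml, norm_prod, ← Finset.prod_pow, ← Finset.prod_mul_distrib,
    ← hp.prod_comp fun j => 1 + ‖cr j w‖ ^ 2 + ‖1 - cr j w‖ ^ 2]
  refine Finset.prod_congr rfl fun j _ => ?_
  have hb : (an (t j) (cr (p j) w)).2 ≠ 0 := an_snd_ne (cr_ne_zero hw _) (cr_ne_one hw _) _
  have hb' : ‖(an (t j) (cr (p j) w)).2‖ ≠ 0 := norm_ne_zero_iff.2 hb
  rw [h w hw j, af, ← an_normSq (t j) (cr (p j) w)]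
  have e1 : (1 : ℂ) - (an (t j) (cr (p j) w)).1 / (an (t j) (cr (p j) w)).2 =
      ((an (t j) (cr (p j) w)).2 - (an (t j) (cr (p j) w)).1) / (an (t j) (cr (p j) w)).2 := by
    field_simp
  rw [e1, norm_div, norm_div, norm_sub_rev (an (t j) (cr (p j) w)).2]
  field_simp
  ring

theorem adm (h : Ok p t) (h' : Ok p' t') (hi : Inv p t p' t') (hi' : Inv p' t' p t) :
    Adm (mv p t) (mv p' t') (ml p t) where
  maps := mv_maps h
  maps' := mv_maps h'
  diff := mv_diff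
  diff' := mv_diff
  left := mv_left h h' hi'
  right := mv_left h' h hi
  mdiff := ml_diff
  mne := ml_ne
  wt := ml_wt h ⟨fun a b hab => by rw [← (hi a).1, ← (hi b).1, hab],
    fun a => ⟨p' a, (hi' a).1⟩⟩

end Vale.Agent.P300.PROJ
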