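import Vale.Agent.P300.H933.EmbD
import Vale.Agent.P300.H749.CmpCpx
import Vale.Agent.P300.H242.YBar
import Vale.Agent.P300.PROJ.Overlap

/-!
# P300 / PROJ: holomorphic maps to `ℙ¹ = OnePoint ℂ` (helper142)

A map which is locally `[A : B]` with holomorphic `A`, `B` without common zeros is `IsHolP1`;
the five coordinates of a map to `M̄_{0,5}` which is holomorphic in the node charts are `IsHolP1`.
-/

set_option autoImplicit false
set_option linter.style.haveILetI false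

open Set Filter Topology
open scoped Manifold ContDiff

namespace Vale.Agent.P300.PROJ

/-- `c = [a : b]` -/
def IsQuo (c : OnePoint ℂ) (a b : ℂ) : Prop :=
  (b ≠ 0 → c = ((a / b : ℂ) : OnePoint ℂ)) ∧ (b = 0 → c = OnePoint.infty)

theorem IsQuo.ne_infty {c : OnePoint ℂ} {a b : ℂ} (h : IsQuo c a b) (hc : c ≠ OnePoint.infty) :
    b ≠ 0 := fun hb => hc (h.2 hb)

theorem IsQuo.ne_zero {c : OnePoint ℂ} {a b : ℂ} (h : IsQuo c a b) (hab : a ≠ 0 ∨ b ≠ 0)
    (hc : c ≠ ((0 : ℂ) : OnePoint ℂ)) : a ≠ 0 := by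
  intro ha
  have hb : b ≠ 0 := by simpa [ha] using hab
  exact hc (by rw [h.1 hb, ha, zero_div])

theorem IsQuo.val_eq {c : OnePoint ℂ} {a b : ℂ} (h : IsQuo c a b) (hb : b ≠ 0) :
    Emb.val c = a / b := by
  rw [h.1 hb, Emb.val_coe]

theorem IsQuo.ival_eq {c : OnePoint ℂ} {a b : ℂ} (h : IsQuo c a b) :
    Emb.ival c = b / a := by
  by_cases hb : b = 0
  · rw [h.2 hb, Emb.ival_infty, hb, zero_div]
  · rw [h.1 hb, Emb.ival_coe, inv_div]

section

variable {E X : Type*} [NormedAddCommGroup E] [NormedSpace ℂ E] [TopologicalSpace X]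
  [ChartedSpace E X]

/-- continuity of `[A : B]` -/
theorem continuousAt_of_isQuo {T : Type*} [TopologicalSpace T] {c : T → OnePoint ℂ}
    {A B : T → ℂ} {W : Set T} {x : T} (hW : W ∈ 𝓝 x) (hA : ContinuousAt A x)
    (hB : ContinuousAt B x) (hne : A x ≠ 0 ∨ B x ≠ 0) (h : ∀ y ∈ W, IsQuo (c y) (A y) (B y)) :
    ContinuousAt c x := by
  by_cases hb : B x = 0
  · have ha : A x ≠ 0 := by simpa [hb] using hne
    have hval : c x = OnePoint.infty := (h x (mem_of_mem_nhds hW)).2 hb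
    show Tendsto c (𝓝 x) (𝓝 (c x))
    rw [hval, (OnePoint.hasBasis_nhds_infty (X := ℂ)).tendsto_right_iff]
    rintro K ⟨-, hK⟩
    obtain ⟨R, hR⟩ := hK.isBounded.subset_closedBall 0
    have hev : ∀ᶠ y in 𝓝 x, |R| * ‖B y‖ < ‖A y‖ := by
      refine (continuousAt_const.mul hB.norm).eventually_lt hA.norm ?_
      show |R| * ‖B x‖ < ‖A x‖
      rw [hb]; simpa using ha
    filter_upwards [hev, hW] with y hy hyW
    by_cases hb2 : B y = 0
    · right; exact (h y hyW).2 hb2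
    · left
      refine ⟨A y / B y, ?_, ((h y hyW).1 hb2).symm⟩
      intro hmem
      have := hR hmem
      rw [mem_closedBall_zero_iff, norm_div] at this
      have hpos : 0 < ‖B y‖ := norm_pos_iff.mpr hb2
      rw [div_le_iff₀ hpos] at this
      have : ‖A y‖ ≤ |R| * ‖B y‖ := this.trans (mul_le_mul_of_nonneg_right (le_abs_self R) hpos.le)
      linarith
  · have hev : (fun y => ((A y / B y : ℂ) : OnePoint ℂ)) =ᶠ[𝓝 x] c := by
      filter_upwards [hB.eventually_ne hb, hW] with y hy hyW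
      exact ((h y hyW).1 hy).symm
    refine ContinuousAt.congr ?_ hev
    exact OnePoint.continuous_coe.continuousAt.comp (hA.div hB hb)

/-- **local criterion** -/
theorem isHolP1_of_local {c : X → OnePoint ℂ}
    (h : ∀ x, ∃ W, IsOpen W ∧ x ∈ W ∧ ∃ A B : X → ℂ, ContMDiffOn 𝓘(ℂ, E) 𝓘(ℂ) ω A W ∧
      ContMDiffOn 𝓘(ℂ, E) 𝓘(ℂ) ω B W ∧ (∀ y ∈ W, A y ≠ 0 ∨ B y ≠ 0) ∧
      ∀ y ∈ W, IsQuo (c y) (A y) (B y)) : Emb.IsHolP1 E c := by
  have hcont : Continuous c := by
    rw [continuous_iff_continuousAt]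
    intro x
    obtain ⟨W, hW, hx, A, B, hA, hB, hne, hq⟩ := h x
    exact continuousAt_of_isQuo (hW.mem_nhds hx)
      (hA.continuousOn.continuousAt (hW.mem_nhds hx))
      (hB.continuousOn.continuousAt (hW.mem_nhds hx)) (hne x hx) hq
  refine ⟨hcont, ?_, ?_⟩
  · intro x hx
    obtain ⟨W, hW, hxW, A, B, hA, hB, hne, hq⟩ := h x
    have hO : IsOpen (W ∩ {y | c y ≠ OnePoint.infty}) :=
      hW.inter (isOpen_ne_fun hcont continuous_const)
    have h1 : ContMDiffOn 𝓘(ℂ, E) 𝓘(ℂ) ω (fun y => A y / B y) (W ∩ {y | c y ≠ OnePoint.infty}) :=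
      (hA.mono inter_subset_left).div₀ (hB.mono inter_subset_left)
        fun y hy => (hq y hy.1).ne_infty hy.2
    have h2 : ContMDiffOn 𝓘(ℂ, E) 𝓘(ℂ) ω (fun y => Emb.val (c y))
        (W ∩ {y | c y ≠ OnePoint.infty}) :=
      h1.congr fun y hy => (hq y hy.1).val_eq ((hq y hy.1).ne_infty hy.2)
    exact ((h2 x ⟨hxW, hx⟩).contMDiffAt (hO.mem_nhds ⟨hxW, hx⟩)).contMDiffWithinAt
  · intro x hx
    obtain ⟨W, hW, hxW, A, B, hA, hB, hne, hq⟩ := h x
    have hO : IsOpen (W ∩ {y | c y ≠ ((0 : ℂ) : OnePoint ℂ)}) :=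
      hW.inter (isOpen_ne_fun hcont continuous_const)
    have h1 : ContMDiffOn 𝓘(ℂ, E) 𝓘(ℂ) ω (fun y => B y / A y)
        (W ∩ {y | c y ≠ ((0 : ℂ) : OnePoint ℂ)}) :=
      (hB.mono inter_subset_left).div₀ (hA.mono inter_subset_left)
        fun y hy => (hq y hy.1).ne_zero (hne y hy.1) hy.2
    have h2 : ContMDiffOn 𝓘(ℂ, E) 𝓘(ℂ) ω (fun y => Emb.ival (c y))
        (W ∩ {y | c y ≠ ((0 : ℂ) : OnePoint ℂ)}) :=
      h1.congr fun y hy => (hq y hy.1).ival_eq
    exact ((h2 x ⟨hxW, hx⟩).contMDiffAt (hO.mem_nhds ⟨hxW, hx⟩)).contMDiffWithinAt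

/-- the criterion in a family of parametrisations -/
theorem isHolP1_of_param {ι : Type*} (Ph : ι → OpenPartialHomeomorph E X)
    (cover : ∀ x, ∃ a, x ∈ (Ph a).target)
    (holo_symm : ∀ a, ContMDiffOn 𝓘(ℂ, E) 𝓘(ℂ, E) ω (Ph a).symm (Ph a).target)
    {c : X → OnePoint ℂ} (A B : ι → E → ℂ)
    (hA : ∀ a, ContDiffOn ℂ ω (A a) (Ph a).source) (hB : ∀ a, ContDiffOn ℂ ω (B a) (Ph a).source)
    (hne : ∀ a, ∀ z ∈ (Ph a).source, A a z ≠ 0 ∨ B a z ≠ 0)
    (hc : ∀ a, ∀ z ∈ (Ph a).source, IsQuo (c (Ph a z)) (A a z) (B a z)) : Emb.IsHolP1 E c := by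
  refine isHolP1_of_local fun x => ?_
  obtain ⟨a, ha⟩ := cover x
  refine ⟨(Ph a).target, (Ph a).open_target, ha, A a ∘ (Ph a).symm, B a ∘ (Ph a).symm,
    ?_, ?_, fun y hy => hne a _ ((Ph a).map_target hy), fun y hy => ?_⟩
  · exact (hA a).contMDiffOn.comp (holo_symm a) fun y hy => (Ph a).map_target hy
  · exact (hB a).contMDiffOn.comp (holo_symm a) fun y hy => (Ph a).map_target hy
  · have := hc a _ ((Ph a).map_target hy)
    rwa [(Ph a).right_inv hy] at this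

/-- the criterion for the chart systems of helper414 -/
theorem Charts.isHolP1 {M A' : Type*} (C : Charts E X M A') {c : X → OnePoint ℂ}
    (A B : A' → E → ℂ) (hA : ∀ a, ContDiffOn ℂ ω (A a) (C.Ph a).source)
    (hB : ∀ a, ContDiffOn ℂ ω (B a) (C.Ph a).source)
    (hne : ∀ a, ∀ z ∈ (C.Ph a).source, A a z ≠ 0 ∨ B a z ≠ 0)
    (hc : ∀ a, ∀ z ∈ (C.Ph a).source, IsQuo (c (C.Ph a z)) (A a z) (B a z)) :
    Emb.IsHolP1 E c :=
  isHolP1_of_param C.Ph C.cover C.holo_symm A B hA hB hne hc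

end

section cpx

open Vale.Agent.P300.Cpx Vale.Agent.P300.H573

/-- the criterion for helper749's atlases -/
theorem isHolP1_cpxAtlas {X : Type*} [TopologicalSpace X] (At : CpxAtlas X)
    {c : X → OnePoint ℂ} (A B : At.I → E2 → ℂ)
    (hA : ∀ i, ContDiffOn ℂ ω (A i) (At.e i).target)
    (hB : ∀ i, ContDiffOn ℂ ω (B i) (At.e i).target)
    (hne : ∀ i, ∀ z ∈ (At.e i).target, A i z ≠ 0 ∨ B i z ≠ 0)
    (hc : ∀ i, ∀ z ∈ (At.e i).target, IsQuo (c ((At.e i).symm z)) (A i z) (B i z)) :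
    letI := At.charted
    Emb.IsHolP1 E2 c := by
  letI := At.charted
  exact isHolP1_of_param (fun i => (At.e i).symm) (fun x => At.cover x)
    (fun i => At.e_contMDiffOn i) A B hA hB hne hc

variable {Y X0 : Type} [TopologicalSpace Y] [TopologicalSpace X0] {q : X0 → Y}

/-- the criterion on the completion of helper573 -/
theorem isHolP1_cmp {D : Models q} (C : CpxModels D) [T2Space Y] [LocallyCompactSpace Y]
    {c : D.Cmp → OnePoint ℂ} (A B : D.I → E2 → ℂ)
    (hA : ∀ i, ContDiffOn ℂ ω (A i) (C.Ω i)) (hB : ∀ i, ContDiffOn ℂ ω (B i) (C.Ω i))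
    (hne : ∀ i, ∀ z ∈ C.Ω i, A i z ≠ 0 ∨ B i z ≠ 0)
    (hc : ∀ i (z : C.Ω i), IsQuo (c (D.hat i (C.φ i z))) (A i z) (B i z)) :
    letI := C.atlas.charted
    Emb.IsHolP1 E2 c := by
  refine isHolP1_cpxAtlas C.atlas A B (fun i => (hA i).mono (C.atlas_target i).subset)
    (fun i => (hB i).mono (C.atlas_target i).subset)
    (fun i z hz => hne i z ((C.atlas_target i).subset hz)) (fun i z hz => ?_)
  have hz' : z ∈ C.Ω i := (C.atlas_target i).subset hz
  have h := C.atlas_symm i ⟨z, hz'⟩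
  have h2 := hc i ⟨z, hz'⟩
  rw [← h] at h2
  exact h2

end cpx

/-! ### the coordinates of `M̄_{0,5}` (helper242's `Y`) -/

section Y

open Vale.Agent.P300.H242

/-- numerators of the anharmonic group -/
def pA : M6 → ℂ → ℂ
  | .e => fun z => z
  | .s => fun z => 1 - z
  | .j => fun _ => 1
  | .sj => fun z => z - 1
  | .js => fun _ => 1
  | .m => fun z => -z

/-- denominators of the anharmonic group -/
def pB : M6 → ℂ → ℂ
  | .e => fun _ => 1
  | .s => fun _ => 1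
  | .j => fun z => z
  | .sj => fun z => z
  | .js => fun z => 1 - z
  | .m => fun z => 1 - z

theorem pA_or_pB (a : M6) (z : ℂ) : pA a z ≠ 0 ∨ pB a z ≠ 0 := by
  cases a <;> simp only [pA, pB]
  · exact Or.inr one_ne_zero
  · exact Or.inr one_ne_zero
  · exact Or.inl one_ne_zero
  · by_cases h : z = 0
    · left; rw [h]; norm_num
    · exact Or.inr h
  · exact Or.inl one_ne_zero
  · by_cases h : z = 0
    · right; rw [h]; norm_num
    · exact Or.inl (neg_ne_zero.2 h)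

theorem contDiff_pA (a : M6) : ContDiff ℂ ω (pA a) := by
  cases a <;> simp only [pA] <;> fun_prop

theorem contDiff_pB (a : M6) : ContDiff ℂ ω (pB a) := by
  cases a <;> simp only [pB] <;> fun_prop

theorem isQuo_act (a : M6) (z : ℂ) : IsQuo (M6.act a (z : OnePoint ℂ)) (pA a z) (pB a z) := by
  have hj : IsQuo (inv1 (z : OnePoint ℂ)) 1 z := by
    refine ⟨fun h => ?_, fun h => ?_⟩
    · rw [inv1_coe h, one_div]
    · rw [h, inv1_zero]
  have hjs : IsQuo (inv1 (sub1 (z : OnePoint ℂ))) 1 (1 - z) := by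
    rw [sub1_coe]
    refine ⟨fun h => ?_, fun h => ?_⟩
    · rw [inv1_coe h, one_div]
    · rw [h, inv1_zero]
  cases a <;> simp only [pA, pB, M6.act]
  · exact ⟨fun _ => by rw [div_one], fun h => absurd h one_ne_zero⟩
  · exact ⟨fun _ => by rw [div_one, sub1_coe], fun h => absurd h one_ne_zero⟩
  · exact hj
  · refine ⟨fun h => ?_, fun h => ?_⟩
    · rw [hj.1 h, sub1_coe]
      congr 1
      field_simp
    · rw [hj.2 h, sub1_infty]
  · exact hjs
  · refine ⟨fun h => ?_, fun h => ?_⟩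
    · rw [hjs.1 h, sub1_coe]
      congr 1
      field_simp
      ring
    · rw [hjs.2 h, sub1_infty]

theorem contDiffOn_cc (k : Fin 5) : ContDiffOn ℂ ω (fun p => cc p k) H242.Om := by
  have h : ∀ p ∈ H242.Om, (1 - p.1 * p.2 : ℂ) ≠ 0 := fun p hp => hp.2.2
  fin_cases k
  · exact ContDiffOn.div (by fun_prop) (by fun_prop) h
  · exact contDiff_snd.contDiffOn
  · exact (contDiff_fst.mul contDiff_snd).contDiffOn
  · exact contDiff_fst.contDiffOn
  · exact ContDiffOn.div (by fun_prop) (by fun_prop) h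

/-- numerator of the coordinate `i` of helper242's node chart of the word `w` -/
noncomputable def yA (w : List (Fin 5)) (i : Fin 5) (p : ℂ × ℂ) : ℂ :=
  pA ((wr w).m i) (cc p ((wr w).p i))

/-- denominator of the coordinate `i` of helper242's node chart of the word `w` -/
noncomputable def yB (w : List (Fin 5)) (i : Fin 5) (p : ℂ × ℂ) : ℂ :=
  pB ((wr w).m i) (cc p ((wr w).p i))

theorem isQuo_kap (w : List (Fin 5)) (i : Fin 5) {p : ℂ × ℂ} (hp : p ∈ H242.Om) :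
    IsQuo ((H242.kap w p : Fin 5 → P1) i) (yA w i p) (yB w i p) := by
  rw [kap_val w hp]
  exact isQuo_act _ _

theorem yA_or_yB (w : List (Fin 5)) (i : Fin 5) (p : ℂ × ℂ) : yA w i p ≠ 0 ∨ yB w i p ≠ 0 :=
  pA_or_pB _ _

theorem contDiffOn_yA (w : List (Fin 5)) (i : Fin 5) : ContDiffOn ℂ ω (yA w i) H242.Om :=
  (contDiff_pA _).comp_contDiffOn (contDiffOn_cc _)

theorem contDiffOn_yB (w : List (Fin 5)) (i : Fin 5) : ContDiffOn ℂ ω (yB w i) H242.Om :=
  (contDiff_pB _).comp_contDiffOn (contDiffOn_cc _)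

variable {E X : Type*} [NormedAddCommGroup E] [NormedSpace ℂ E] [TopologicalSpace X]
  [ChartedSpace E X]

/-- **the five coordinates of a map to `M̄_{0,5}`** which is `kap (w a) ∘ g a` in the
parametrisations -/
theorem isHolP1_Y {ι : Type*} (Ph : ι → OpenPartialHomeomorph E X)
    (cover : ∀ x, ∃ a, x ∈ (Ph a).target)
    (holo_symm : ∀ a, ContMDiffOn 𝓘(ℂ, E) 𝓘(ℂ, E) ω (Ph a).symm (Ph a).target)
    {qY : X → H242.Y} (w : ι → List (Fin 5)) (g : ι → E → ℂ × ℂ)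
    (hg : ∀ a, ContDiffOn ℂ ω (g a) (Ph a).source)
    (hgO : ∀ a, ∀ z ∈ (Ph a).source, g a z ∈ H242.Om)
    (hq : ∀ a, ∀ z ∈ (Ph a).source, qY (Ph a z) = H242.kap (w a) (g a z)) (j : Fin 5) :
    Emb.IsHolP1 E (fun x => (qY x : Fin 5 → P1) j) :=
  isHolP1_of_param Ph cover holo_symm (fun a z => yA (w a) j (g a z))
    (fun a z => yB (w a) j (g a z))
    (fun a => (contDiffOn_yA _ _).comp (hg a) (hgO a))
    (fun a => (contDiffOn_yB _ _).comp (hg a) (hgO a))
    (fun a z _ => yA_or_yB _ _ _)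
    (fun a z hz => by
      show IsQuo ((qY (Ph a z) : Fin 5 → P1) j) _ _
      rw [hq a z hz]
      exact isQuo_kap _ _ (hgO a z hz))

open Vale.Agent.P300.Cpx Vale.Agent.P300.H573

/-- the same on the completion of helper573 -/
theorem isHolP1_Y_cmp {Y X0 : Type} [TopologicalSpace Y] [TopologicalSpace X0] {q : X0 → Y}
    {D : Models q} (C : CpxModels D) [T2Space Y] [LocallyCompactSpace Y]
    {qY : D.Cmp → H242.Y} (w : D.I → List (Fin 5)) (g : D.I → E2 → ℂ × ℂ)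
    (hg : ∀ i, ContDiffOn ℂ ω (g i) (C.Ω i)) (hgO : ∀ i, ∀ z ∈ C.Ω i, g i z ∈ H242.Om)
    (hq : ∀ i (z : C.Ω i), qY (D.hat i (C.φ i z)) = H242.kap (w i) (g i z)) (j : Fin 5) :
    letI := C.atlas.charted
    Emb.IsHolP1 E2 (fun x => (qY x : Fin 5 → P1) j) :=
  isHolP1_cmp C (fun a z => yA (w a) j (g a z)) (fun a z => yB (w a) j (g a z))
    (fun a => (contDiffOn_yA _ _).comp (hg a) (hgO a))
    (fun a => (contDiffOn_yB _ _).comp (hg a) (hgO a))
    (fun a z _ => yA_or_yB _ _ _)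
    (fun a z => by
      show IsQuo ((qY (D.hat a (C.φ a z)) : Fin 5 → P1) j) _ _
      rw [hq a z]
      exact isQuo_kap _ _ (hgO a z z.2))

end Y

end Vale.Agent.P300.PROJ
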