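import Vale.Agent.P300.PROJ.Overlap

/-!
# P300 / PROJ: products of sections separate points and tangent vectors
-/

set_option autoImplicit false

open Set Filter Topology
open scoped Manifold ContDiff

namespace Vale.Agent.P300.PROJ

variable {E X M A : Type*} [NormedAddCommGroup E] [NormedSpace ℂ E]
    [TopologicalSpace X] [ChartedSpace E X]

namespace Charts

variable (C : Charts E X M A)

theorem mfderiv_symm_injective (a : A) {x : X} (hx : x ∈ (C.Ph a).target) :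
    Function.Injective (mfderiv 𝓘(ℂ, E) 𝓘(ℂ, E) (C.Ph a).symm x) := by
  have hz : (C.Ph a).symm x ∈ (C.Ph a).source := (C.Ph a).map_target hx
  have h1 : MDifferentiableAt 𝓘(ℂ, E) 𝓘(ℂ, E) (C.Ph a).symm x :=
    ((C.holo_symm a).contMDiffAt ((C.Ph a).open_target.mem_nhds hx)).mdifferentiableAt (by simp)
  have h2 : MDifferentiableAt 𝓘(ℂ, E) 𝓘(ℂ, E) (C.Ph a) ((C.Ph a).symm x) :=
    ((C.holo a).contMDiffAt ((C.Ph a).open_source.mem_nhds hz)).mdifferentiableAt (by simp)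
  have h3 : mfderiv 𝓘(ℂ, E) 𝓘(ℂ, E) ((C.Ph a) ∘ (C.Ph a).symm) x =
      (mfderiv 𝓘(ℂ, E) 𝓘(ℂ, E) (C.Ph a) ((C.Ph a).symm x)).comp
        (mfderiv 𝓘(ℂ, E) 𝓘(ℂ, E) (C.Ph a).symm x) := mfderiv_comp x h2 h1
  have h4 : (C.Ph a) ∘ (C.Ph a).symm =ᶠ[𝓝 x] id := by
    filter_upwards [(C.Ph a).open_target.mem_nhds hx] with y hy
    exact (C.Ph a).right_inv hy
  intro v w hvw
  have h5 : ∀ u, (mfderiv 𝓘(ℂ, E) 𝓘(ℂ, E) ((C.Ph a) ∘ (C.Ph a).symm) x) u = u := by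
    intro u
    rw [h4.mfderiv_eq, mfderiv_id]
    rfl
  have h6 := h5 v
  have h7 := h5 w
  rw [h3] at h6 h7
  have h8 : (mfderiv 𝓘(ℂ, E) 𝓘(ℂ, E) (C.Ph a) ((C.Ph a).symm x))
      ((mfderiv 𝓘(ℂ, E) 𝓘(ℂ, E) (C.Ph a).symm x) v) =
      (mfderiv 𝓘(ℂ, E) 𝓘(ℂ, E) (C.Ph a) ((C.Ph a).symm x))
      ((mfderiv 𝓘(ℂ, E) 𝓘(ℂ, E) (C.Ph a).symm x) w) := by rw [hvw]
  exact (h6.symm.trans h8).trans h7

end Charts

namespace Secs

variable {C : Charts E X M A} {H : Type*} [AddCommGroup H] [Module ℂ H] (S : Secs C H)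

theorem mfderiv_tau (a : A) (s : H) {x : X} (hx : x ∈ (C.Ph a).target) :
    mfderiv 𝓘(ℂ, E) 𝓘(ℂ, ℂ) (S.tau a s) x =
      (fderiv ℂ (S.F a s) ((C.Ph a).symm x)).comp
        (mfderiv 𝓘(ℂ, E) 𝓘(ℂ, E) (C.Ph a).symm x) := by
  have hz : (C.Ph a).symm x ∈ (C.Ph a).source := (C.Ph a).map_target hx
  have h1 : MDifferentiableAt 𝓘(ℂ, E) 𝓘(ℂ, E) (C.Ph a).symm x :=
    ((C.holo_symm a).contMDiffAt ((C.Ph a).open_target.mem_nhds hx)).mdifferentiableAt (by simp)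
  have h2 : DifferentiableAt ℂ (S.F a s) ((C.Ph a).symm x) :=
    ((S.anal a s).contDiffAt ((C.Ph a).open_source.mem_nhds hz)).differentiableAt (by simp)
  have h3 : mfderiv 𝓘(ℂ, E) 𝓘(ℂ, ℂ) (S.F a s ∘ (C.Ph a).symm) x =
      (mfderiv 𝓘(ℂ, E) 𝓘(ℂ, ℂ) (S.F a s) ((C.Ph a).symm x)).comp
        (mfderiv 𝓘(ℂ, E) 𝓘(ℂ, E) (C.Ph a).symm x) :=
    mfderiv_comp x h2.mdifferentiableAt h1
  rw [mfderiv_eq_fderiv] at h3
  exact h3

/-- Vanishing at a point does not depend on the parametrisation. -/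
theorem tau_eq_zero_iff (hbpf : ∀ a, ∀ y ∈ (C.Ph a).target, ∃ s, S.tau a s y ≠ 0)
    {a b : A} {y : X} (ha : y ∈ (C.Ph a).target) (hb : y ∈ (C.Ph b).target) (s : H) :
    S.tau a s y = 0 ↔ S.tau b s y = 0 := by
  obtain ⟨c, hc, h⟩ := S.exists_factor hbpf ha hb
  rw [h s, mul_eq_zero]
  tauto

end Secs

/-- The hypotheses under which the products of the sections of `S` (values in `K_X ⊗ L^k`) and of
`L` embed `X`. -/
structure SepData {C : Charts E X M A} {H T : Type*} [AddCommGroup H] [Module ℂ H]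
    [AddCommGroup T] [Module ℂ T] (S : Secs C H) (L : Secs C T) {Y : Type*} (q : X → Y) : Prop where
  bpfS : ∀ a, ∀ y ∈ (C.Ph a).target, ∃ s, S.tau a s y ≠ 0
  bpfL : ∀ a, ∀ y ∈ (C.Ph a).target, ∃ t, L.tau a t y ≠ 0
  /-- points of the same fibre -/
  sepS : ∀ x x', x ≠ x' → q x = q x' → ∃ a b, x ∈ (C.Ph a).target ∧ x' ∈ (C.Ph b).target ∧
    ∃ s, S.tau a s x = 0 ∧ S.tau b s x' ≠ 0
  /-- points of different fibres -/
  sepL : ∀ x x', q x ≠ q x' → ∃ a b, x ∈ (C.Ph a).target ∧ x' ∈ (C.Ph b).target ∧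
    ∃ t, L.tau a t x = 0 ∧ L.tau b t x' ≠ 0
  /-- tangent vectors -/
  tanS : ∀ x, ∃ a, x ∈ (C.Ph a).target ∧ ∀ v : E, v ≠ 0 →
    ∃ s, S.F a s ((C.Ph a).symm x) = 0 ∧ fderiv ℂ (S.F a s) ((C.Ph a).symm x) v ≠ 0

namespace SepData

variable {C : Charts E X M A} {H T : Type*} [AddCommGroup H] [Module ℂ H]
    [AddCommGroup T] [Module ℂ T] {S : Secs C H} {L : Secs C T} {Y : Type*} {q : X → Y}
    (D : SepData S L q)
include D

theorem bpf (a : A) (y : X) (hy : y ∈ (C.Ph a).target) :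
    ∃ u, (mulSecs S L).tau a u y ≠ 0 := by
  obtain ⟨s, hs⟩ := D.bpfS a y hy
  obtain ⟨t, ht⟩ := D.bpfL a y hy
  exact ⟨Finsupp.single t s, by rw [mulSecs_tau_single]; exact mul_ne_zero ht hs⟩

theorem sep {x x' : X} (hne : x ≠ x') {a b : A} (ha : x ∈ (C.Ph a).target)
    (hb : x' ∈ (C.Ph b).target) :
    ∃ u, (mulSecs S L).tau a u x = 0 ∧ (mulSecs S L).tau b u x' ≠ 0 := by
  by_cases hq : q x = q x'
  · obtain ⟨a', b', ha', hb', s, hs, hs'⟩ := D.sepS x x' hne hq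
    obtain ⟨t, ht⟩ := D.bpfL b x' hb
    refine ⟨Finsupp.single t s, ?_, ?_⟩
    · rw [mulSecs_tau_single, (S.tau_eq_zero_iff D.bpfS ha ha' s).2 hs, mul_zero]
    · rw [mulSecs_tau_single]
      exact mul_ne_zero ht fun h => hs' ((S.tau_eq_zero_iff D.bpfS hb hb' s).1 h)
  · obtain ⟨a', b', ha', hb', t, ht, ht'⟩ := D.sepL x x' hq
    obtain ⟨s, hs⟩ := D.bpfS b x' hb
    refine ⟨Finsupp.single t s, ?_, ?_⟩
    · rw [mulSecs_tau_single, (L.tau_eq_zero_iff D.bpfL ha ha' t).2 ht, zero_mul]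
    · rw [mulSecs_tau_single]
      exact mul_ne_zero (fun h => ht' ((L.tau_eq_zero_iff D.bpfL hb hb' t).1 h)) hs

/-- tangent vectors are separated, in the parametrisation of `tanS` -/
theorem tan (x : X) : ∃ a, x ∈ (C.Ph a).target ∧ ∀ v : TangentSpace 𝓘(ℂ, E) x, v ≠ 0 →
    ∃ u, (mulSecs S L).tau a u x = 0 ∧
      mfderiv 𝓘(ℂ, E) 𝓘(ℂ, ℂ) ((mulSecs S L).tau a u) x v ≠ 0 := by
  obtain ⟨a, ha, h⟩ := D.tanS x
  refine ⟨a, ha, fun v hv => ?_⟩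
  set v' : E := mfderiv 𝓘(ℂ, E) 𝓘(ℂ, E) (C.Ph a).symm x v with hv'
  have hv0 : v' ≠ 0 := by
    intro h0
    apply hv
    apply C.mfderiv_symm_injective a ha
    rw [map_zero]
    exact h0
  obtain ⟨s, hs0, hs1⟩ := h v' hv0
  obtain ⟨t, ht⟩ := D.bpfL a x ha
  refine ⟨Finsupp.single t s, ?_, ?_⟩
  · rw [mulSecs_tau_single]
    simp [Secs.tau_apply, hs0]
  · rw [Secs.mfderiv_tau _ a _ ha]
    have hz : (C.Ph a).symm x ∈ (C.Ph a).source := (C.Ph a).map_target ha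
    have hLd : DifferentiableAt ℂ (L.F a t) ((C.Ph a).symm x) :=
      ((L.anal a t).contDiffAt ((C.Ph a).open_source.mem_nhds hz)).differentiableAt (by simp)
    have hSd : DifferentiableAt ℂ (S.F a s) ((C.Ph a).symm x) :=
      ((S.anal a s).contDiffAt ((C.Ph a).open_source.mem_nhds hz)).differentiableAt (by simp)
    have hF : (mulSecs S L).F a (Finsupp.single t s) = L.F a t * S.F a s := by
      simp [mulSecs]
    have hval : fderiv ℂ (L.F a t * S.F a s) ((C.Ph a).symm x) v' =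
        L.F a t ((C.Ph a).symm x) * fderiv ℂ (S.F a s) ((C.Ph a).symm x) v' := by
      rw [fderiv_mul hLd hSd]
      simp [hs0]
    show (fderiv ℂ ((mulSecs S L).F a (Finsupp.single t s)) ((C.Ph a).symm x)) v' ≠ 0
    rw [hF, hval]
    exact mul_ne_zero ht hs1

end SepData

end Vale.Agent.P300.PROJ
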